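import Vale.Agent.N352.G.En

/-!
# N352, block T: conformal invariance together with mixing
-/

set_option linter.all false

open Filter Topology

namespace Vale.Agent.N352.T

open Vale.Agent.P352 Vale.Agent.P352.GF Vale.Agent.P352.BW Vale.Agent.P352.H246
open Vale.Agent.P352.H496 Vale.Agent.P352.H755 Vale.Agent.P352.H15
open Vale.Agent.P352X Vale.Agent.P352L Vale.Agent.P352R
open UniformSpace (Completion)

noncomputable section

universe u v

variable {D : Type u} [NormedAddCommGroup D] [InnerProductSpace ℂ D]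
  {D' : Type v} [NormedAddCommGroup D'] [InnerProductSpace ℂ D']

/-- conformal invariance and mixing -/
def Cm (R : Theory D) (G : D → D) (T t : Ix → Ix → Fld D) : Prop := Conf R G T t ∧ Pf.Mx R t

theorem corm {Q : Theory D} {G : D → D} (g : Gr Q G) {S : Ix → Ix → Fld D} {L : Fld D}
    (hS : Q.IsStress S) (hL : Q.IsScalar L 2)
    (h0 : ∀ f v, IsTest f → tr (improve S L) f v = 0) (mx : Pf.Mx Q (improve S L)) :
    Cm Q G S (improve S L) := ⟨Pf.core g hS hL h0 mx, mx⟩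

theorem Cm.same {Q : Theory D} {G : D → D} {T S t : Ix → Ix → Fld D} (k : Cm Q G S t)
    (h : Dn.Same Q T S) : Cm Q G T t :=
  ⟨⟨k.1.form, F.impr_same h k.1.impr, k.1.act, k.1.cfs, k.1.desc⟩, k.2⟩

section net

open Vale.Agent.N352.Pf Vale.Agent.N352.U Vale.Agent.N352.U.Mn Vale.Agent.N352.F
open Vale.Agent.P352X.EG (Cg)

variable (ρ : U.Rows D) (c : Cg D) {T : Ix → Ix → Fld D} (hM : MfAll c.Q) (hF : FSL c.Q)
  (hI : U.IVac c.Q)
include ρ hM hF hI

/-- **the local extension** -/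
theorem exten (a1 : c.Q.IsStress T) (a2 : ND.PCh c.Q T c.A) :
    ∃ (E : Submodule ℂ (Completion D)) (P : Theory E) (G' : E → E) (e : Fld D → Fld E)
      (t : Ix → Ix → Fld E), Ext c.Q c.Γ c.N P G' e ∧ Desc P G' t ∧
      ∀ R, P352R.P.IsEnl P R → P352R.P.Gr R G' → Cm R G' (fun m n => e (T m n)) t := by
  obtain ⟨E, P, G', e, L, h1, h0, h2, h3, h4, h5⟩ := ρ.conf c hI hM hF a1 a2
  refine ⟨E, P, G', e, improve (fun m n => e (T m n)) L, ext_of h1 h0, fun B hB => ?_,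
    fun R n g => ?_⟩
  · obtain ⟨n, p, C, u, w⟩ := ((h5 P ⟨rfl, rfl, fun _ h => h, fun _ h => h⟩).2.2 h1.toGr).2 B hB
    exact ⟨n, p, C, fun i => Br.desc (u i), w⟩
  have n := Br.enl.1 n
  refine corm (Br.gr.1 g) (H746.isStress_enl n h2) (scalar_enl n h3) (h5 R n).1.traceless
    (mx_of c (ρ.mixi c) hI (h5 R n).1 (.id ℂ _) E.subtypeₗᵢ (fun _ _ => rfl) ?_
      (fun s M a z v hs hM => ?_) fun F _ => ⟨_, rfl⟩)
  · rw [n.vac]
    exact h1.vac.symm
  · rw [n.U]
    show inner ℂ _ (P.U s M a v : Completion D) = _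
    rw [h1.U _ _ _ _ hs hM]
    exact ue_inner hs hM _ _ _

variable (hT : Stress0 c.Q T) (hA : ND.PCh c.Q T c.A) {R : Theory D'} {i : D →ₗᵢ[ℂ] D'}
  {G' : D' → D'} {T' : Ix → Ix → Fld D'} (h : P.Sect c.Q R i) (g : P.Gr R G')
  (hT' : P.Stress0 R T') (hP : Dn.PGen R T') (hx : ∀ m n, P.Xt i (T m n) (T' m n))
include hT hA h g hT' hP hx

open EG Fss.G in
/-- **a theory that contains the relatively local scalars is conformally invariant** -/
theorem key (hX : Max c.Q c.Γ c.N R i) : ∃ t, Cm R G' T' t := by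
  obtain ⟨S, S', h1, h4, d1, -, d2, c2⟩ := four ρ c hM hF hI hT hA h g hT' hP hx
  obtain ⟨E, P, G1, e, L, a1, a2, -, a4, a5, -⟩ := ρ.conf c hI hM hF h1 h4
  have hl := pot_ext (ext_of a1 a2) h1 a4 a5
  obtain ⟨B, b1, b2⟩ := hX E P G1 e L (ext_of a1 a2) a4
  obtain ⟨b3, b4⟩ := scal_sect h d1 c2 hl.trace (fun s M a f hs hM hf => by
    have k : ((s ^ 2 : ℝ) : ℂ) ≠ 0 := Complex.ofReal_ne_zero.2 (by positivity)
    rw [show P352R.P.Ue c.Q s M a _ = _ from (Ug_apply _ hs hM _ _).symm, G.Sq.pot hl a hs hM hf,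
      ← Complex.coe_smul, smul_smul, Complex.ofReal_inv, mul_inv_cancel₀ k, one_smul]) b1 b2
  suffices k : Cm R G' S' (improve S' B) from ⟨_, k.same d2⟩
  refine corm (Br.gr.1 g) d1 b3 b4 (mx_of c (ρ.mixi c) hI
    (isImpr d1 ⟨rfl, rfl, fun _ h => h, fun _ h => h⟩ b3 b4) (jc i) Completion.toComplₗᵢ jc_inner
    (jc_om h) (fun s M a z v hs hM => ?_) fun F hF' => ?_)
  · exact (congrArg₂ _ (jc_ue h hs hM a z) (ue_coe hs hM a v).symm).trans (ue_inner hs hM _ _ _)
  let Z := LinearMap.range (jc i).toLinearMap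
  have z1 : ∀ f, IsTest f → ((B f R.vac : D') : Completion D') ∈ Z := fun f hf =>
    ⟨_, (b2 f hf).symm⟩
  have z2 : ∀ m n f, IsTest f → ((S' m n f R.vac : D') : Completion D') ∈ Z :=
    fun m n f hf => ⟨_, (jc_coe _).trans <| by rw [c2 m n f _ hf, h.vac]⟩
  show ((smt (improve S' B) F R.vac : D') : Completion D') ∈ Z
  rw [← Completion.coe_toComplL (𝕜 := ℂ)]
  simp only [smt, improve, map_sum, map_add, map_sub, map_smul, Completion.coe_toComplL]
  refine Z.sum_mem fun m _ => Z.sum_mem fun n _ => ?_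
  have hf := (hF' m n).isTest
  exact Z.sub_mem (Z.add_mem (z2 m n _ hf) (Z.smul_mem _ (z1 _ (Ap.test_pd _ (Ap.test_pd _ hf)))))
    (Z.smul_mem _ (Z.sum_mem fun k _ => Z.smul_mem _ (z1 _ (Ap.test_pd _ (Ap.test_pd _ hf)))))

end net

section energy

open E E.Mn F

open Vale.Agent.P352.SubConf (IsAdj) in
/-- **the local extension** -/
theorem extenE (c : Cf D) (hc : COV0 c) {S : Ix → Ix → Fld D} (k : Core c S) :
    ∃ (E : Submodule ℂ (Completion D)) (P : Theory E) (G' : E → E) (e : Fld D → Fld E)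
      (t : Ix → Ix → Fld E), Ext c.Q c.Γ (N1 D) P G' e ∧ (MfAll c.Q → FSL c.Q → Desc P G' t) ∧
      ∀ R, P352R.P.IsEnl P R → P352R.P.Gr R G' → Cm R G' (fun m n => e (S m n)) t := by
  obtain ⟨x, rfl, rfl, ⟨E, P, G', e, L, h1, h2, h3, h4, h5, h6⟩, Z, z2, z1, z3⟩ := k
  have mx : ∀ R, IsEnl P R → Pf.Mx R (improve (fun m n => e (x.T m n)) L) := fun R n F w hF => by
    have hv : (R.vac : Completion D) = x.toCf.Om := by rw [n.vac]; exact h1.vac
    have b3 := z3 _ (imp_mem (R := R) (S := fun m n => e (x.T m n)) (L := L) E.subtype Z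
      (fun m n' f hf => by
        rw [n.vac, Submodule.subtype_apply,
          h1.agree _ f _ _ (x.Q.bose_fld _ (x.hT.bose m n')) hf cyc_vac h1.vac]
        exact z2 m n' f hf)
      (fun f hf => by rw [n.vac, Submodule.subtype_apply, h5 f hf]; exact z1 f hf) hF) w
    rw [← hv, Submodule.subtype_apply, ← Submodule.coe_inner, ← Submodule.coe_inner] at b3
    refine b3.congr' (eventually_nhdsWithin_of_forall fun r hr => ?_)
    obtain ⟨p1, p2⟩ := CA.lsc_pos hr
    show inner ℂ _ (Ue _ _ _ _ _) = inner ℂ _ (R.U _ _ _ _)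
    rw [← h1.U _ _ _ _ p1 p2, n.U]
    rfl
  have t0 := fun R n => (Br.impr.2 (EB.scal_row _ P _ L h2 h3 h4 R n).1).traceless
  refine ⟨E, P, G', e, improve (fun m n => e (x.T m n)) L, Pf.ext_of h1 (afw1 P),
    fun hM hF B hB => ?_, fun R n g => corm (Br.gr.1 g) (H746.isStress_enl (Br.enl.1 n) h2)
      (scalar_enl (Br.enl.1 n) h3) (t0 R (Br.enl.1 n)) (mx R (Br.enl.1 n))⟩
  have n : IsEnl P P := ⟨rfl, rfl, fun _ h => h, fun _ h => h⟩
  obtain ⟨d1, d2⟩ := core2 h1.toGr h2 h3 (t0 P n) (mx P n)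
  obtain ⟨m, C, hC, h⟩ := h6 B hB
  have key : ∀ i, ∃ (r : ℕ) (p : Fin r → Bool) (C' : Fin r → Fld E),
      (∀ j, DescS P G' (improve (fun m n => e (x.T m n)) L) (p j) (C' j)) ∧
      ∀ f v, IsTest f → C i f v = ∑ j, C' j f v := fun i => by
    rcases hC i with h | ⟨C', a, b⟩
    · exact ⟨1, fun _ => false, fun _ => L, fun _ => d2, fun _ _ _ => by simp [h]⟩
    · obtain ⟨r, p, C'', a1, a2⟩ := desc_fld h1 hc hF d1 hM a
      exact ⟨r, p, C'', a1, fun f v hf => (b f v hf).trans (a2 f v hf)⟩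
  choose r p C' b1 b2 using key
  let q := (Fintype.equivFin (Σ i, Fin (r i))).symm
  refine ⟨_, fun j => p (q j).1 (q j).2, fun j => C' (q j).1 (q j).2, fun j => Br.desc (b1 _ _),
    fun f v hf => (h f v).trans ?_⟩
  rw [q.sum_comp fun j => C' j.1 j.2 f v, Fintype.sum_sigma]
  exact Finset.sum_congr rfl fun i _ => b2 i f v hf

variable (c : Cf D) {S : Ix → Ix → Fld D} (k : Core c S) {R : Theory D'} {i : D →ₗᵢ[ℂ] D'}
  {G' : D' → D'} {T' S' : Ix → Ix → Fld D'} (h : P.Sect c.Q R i) (g : P.Gr R G')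
  (d1 : R.IsStress S') (d2 : Dn.Same R T' S') (c2 : ∀ m n, P.Xt i (S m n) (S' m n))
include k h g d1 d2 c2

open Fss.G in
/-- **a theory that contains the relatively local scalars is conformally invariant** -/
theorem keyE (hX : Max c.Q c.Γ (N1 D) R i) : ∃ t, Cm R G' T' t := by
  obtain ⟨x, rfl, rfl, ⟨E, P, G1, e, L, a1, -, a4, -, a5, -⟩, Z, z2, z1, z3⟩ := k
  have hl := x.hl
  obtain ⟨B, b1, b2⟩ := hX E P G1 e L (Pf.ext_of a1 (afw1 P)) a4
  have b2 : ∀ f, IsTest f → ((B f R.vac : D') : Completion D') = jc i (x.l f) := fun f hf => by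
    rw [b2 f hf, a5 f hf, jc_map]
  obtain ⟨b3, b4⟩ := scal_sect h d1 c2 hl.trace (fun s M a f hs hM hf => by
    have k : ((s ^ 2 : ℝ) : ℂ) ≠ 0 := Complex.ofReal_ne_zero.2 (by positivity)
    rw [show P352R.P.Ue x.Q s M a _ = _ from (Ug_apply _ hs hM _ _).symm,
      Sq.pot (c := x.toCf) hl a hs hM hf,
      ← Complex.coe_smul, smul_smul, Complex.ofReal_inv, mul_inv_cancel₀ k, one_smul]) b1 b2
  suffices k : Cm R G' S' (improve S' B) from ⟨_, k.same d2⟩
  refine corm (Br.gr.1 g) d1 b3 b4 fun F w hF' => ?_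
  obtain ⟨y, y1, y2⟩ := imp_mem (R := R) (S := S') (L := B)
    (Completion.toComplL (𝕜 := ℂ) (E := D')).toLinearMap (Z.map (jc i).toLinearMap)
    (fun m n f hf => ⟨_, z2 m n f hf, (jc_coe _).trans <| by rw [c2 m n f _ hf, h.vac]; rfl⟩)
    (fun f hf => ⟨_, z1 f hf, (b2 f hf).symm⟩) hF'
  have y2 : ((smt (improve S' B) F R.vac : D') : Completion D') = jc i y := y2.symm
  have m := z3 y y1 (ContinuousLinearMap.adjoint (jc i) (w : Completion D'))
  have o : jc i x.toCf.Om = (R.vac : Completion D') := jc_om h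
  rw [ContinuousLinearMap.adjoint_inner_right, ← jc_inner (i := i), ← y2, o, Completion.inner_coe,
    Completion.inner_coe] at m
  refine m.congr' (eventually_nhdsWithin_of_forall fun r hr => ?_)
  obtain ⟨p1, p2⟩ := CA.lsc_pos hr
  obtain ⟨z, k⟩ := ug_sur x.toCf p1 p2 0 y
  show inner ℂ y (P352R.P.Ue _ _ _ _ _) = inner ℂ _ (R.U _ _ _ w)
  rw [← Completion.inner_coe (smt _ _ _), y2, ← ue_coe p1 p2, ← k, ue_inner p1 p2, jc_ue h p1 p2,
    ue_inner p1 p2, ContinuousLinearMap.adjoint_inner_right]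

end energy

end

end Vale.Agent.N352.T
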