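import Vale.Agent.N352.Main
import Vale.Agent.N352.F.Br

/-!
# N352, block T: the traceless stress tensor is a conformal primary
-/

set_option linter.all false

open Filter Topology

namespace Vale.Agent.N352.T

open Vale.Agent.P352 Vale.Agent.P352.GF Vale.Agent.P352.H246 Vale.Agent.P352.H755
open Vale.Agent.P352X Vale.Agent.P352X.CA Vale.Agent.P352X.CA.G
open UniformSpace (Completion)

noncomputable section

universe u

/-- vectors -/
def v1 : Rp where
  n := 4
  ρ L := Matrix.of fun i j => (L i j : ℂ)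
  S m n := Matrix.of fun i j => if m = i ∧ n = j then 1 else 0
  id := by
    ext i j
    by_cases h : i = j <;> simp [GF.one, bas, Matrix.one_apply, h, eq_comm]
  mul L L' _ _ := .inl (by
    ext i j
    simp [Matrix.mul_apply, sim])
  der L w i j _ _ d := (d i j).ofReal_comp.congr_deriv (by simp [ite_and])

/-- conserved symmetric traceless tensors of dimension four are primary -/
def DTA : Prop := ∀ (W H : Type u) [AddCommGroup W] [Module ℂ W] [NormedAddCommGroup H]
  [InnerProductSpace ℂ H] (A : CA.G.Dat W H) (h : A.Ax) (y : Ix → Ix → W),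
  (∀ a b, y a b ∈ A.Wd 4) → (∀ w a b, As w → A.M w (y a b) =
    -(∑ c, (w c a : ℂ) • y c b + ∑ c, (w c b : ℂ) • y a c)) → (∀ a b, y a b = y b a) →
  ∑ a, (eta a : ℂ) • y a a = 0 → (∀ b, ∑ a, A.P (bas a 1) (y a b) = 0) → ∀ a b, A.Pm (y a b)

variable {D : Type u} [NormedAddCommGroup D] [InnerProductSpace ℂ D]

/-- pairs of indices -/
def pr : Fin (up v1).n ≃ Ix × Ix := (finProdFinEquiv (m := 4) (n := 4)).symm

theorem rho (L : Ix → V) (a b) :
    (up v1).ρ L a b = (L (pr a).1 (pr b).1 * L (pr a).2 (pr b).2 : ℝ) :=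
  (Complex.ofReal_mul _ _).symm

theorem gw2 {W : Type*} [AddCommGroup W] [Module ℂ W] (w : Ix → V) (y : Fin (up v1).n → W)
    (a b : Ix) : CA.G.gw (up v1) w y (pr.symm (a, b)) =
      ∑ c, (w c a : ℂ) • y (pr.symm (c, b)) + ∑ c, (w c b : ℂ) • y (pr.symm (a, c)) := by
  have e : ∀ c d : Ix, CA.G.sg (up v1) w (pr.symm (c, d)) (pr.symm (a, b)) =
      (if d = b then (w c a : ℂ) else 0) + if c = a then (w d b : ℂ) else 0 := fun c d => by
    have k : ∀ m n i j, (up v1).S m n i j =
        (if m = (pr i).1 ∧ n = (pr j).1 ∧ (pr i).2 = (pr j).2 then 1 else 0) +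
        if (pr i).1 = (pr j).1 then (if m = (pr i).2 ∧ n = (pr j).2 then 1 else 0) else 0 :=
      fun _ _ _ _ => rfl
    simp only [CA.G.sg, k, Equiv.apply_symm_apply, mul_add, Finset.sum_add_distrib]
    congr 1
    · by_cases h : d = b <;> simp [h, ite_and]
    · by_cases h : c = a <;> simp [h, ite_and]
  rw [CA.G.gw, ← pr.symm.sum_comp, Fintype.sum_prod_type]
  simp only [e, add_smul, Finset.sum_add_distrib, ite_smul, zero_smul, Finset.sum_ite_eq',
    Finset.mem_univ, if_true]
  rw [Finset.sum_comm]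
  simp only [Finset.sum_ite_eq', Finset.mem_univ, if_true]

/-- the components of the tensor -/
def cmp (t : Ix → Ix → Fld D) (a : Fin (up v1).n) : Fld D := t (pr a).1 (pr a).2

variable (c : CA.G.Cx D)

theorem cf (m n : Ix) : c.CF (c.t m n) (c.t m n) :=
  have f : c.F0 (c.t m n) (c.t m n) := ⟨fun f g z v a b => c.hT.lin m n f g z v a.1 b.1,
    fun f v w a => c.hT.herm m n f v w a.1, fun C f g v a b d => c.hT.loc m n C f g v a b.1 d.1,
    fun k l f g v a b => c.self m n k l f g v a.1 b.1⟩
  have j := CA.G.CLB.jb c ⟨c.hT.lin m n, c.hT.cont m n, c.hT.herm m n⟩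
  have p := fun a f v (h : CS f) => c.hT.transl m n a f v h.1
  ⟨⟨f, f, j, j⟩, p, p⟩

theorem mp : IsMp c.Q (up v1) 4 (cmp c.t) := fun a s L f v hs hL hf => by
  rw [← pr.symm.sum_comp, Fintype.sum_prod_type]
  simpa only [cmp, rho, Equiv.apply_symm_apply, sub_self, Complex.cpow_zero, one_mul,
    Complex.ofReal_mul] using c.cov _ _ s L 0 f v hs hL hf

theorem loc (m n : Ix) : SubConf.IsLoc c.Q (hil (c.t m n)) (hil (c.t m n)) where
  linf f g z v a b := by
    simp only [hil, c.hT.lin m n f g z v a b, Completion.coe_add, Completion.coe_smul]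
  linv f z v w a := by
    rw [hil, hil, hil, ← Completion.coe_smul, ← Completion.coe_add]
    exact congrArg _ (ext_inner_right ℂ fun y => by
      simp only [c.hT.herm _ _ _ _ _ a, inner_add_left, inner_smul_left])
  cont v := (Completion.continuous_coe D).comp (c.hT.cont m n v)
  adj f v w a := by simp only [hil, Completion.inner_coe, c.hT.herm _ _ _ _ _ a]
  transl a f v z b := by
    simp only [hil, Completion.inner_coe, c.hT.transl _ _ _ _ _ b,
      c.Q.U_inner _ _ _ _ _ one_pos H496.isLor_one]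
  loc C C' f g v z a b d p q s := by
    simp only [hil, Completion.inner_coe, c.hT.loc m n C f g v a p q s]
    rw [← inner_conj_symm, ← d _ _ _ q, inner_conj_symm]

theorem prim_cx (H : DTA.{u}) : PrimS c.Q c.G c.t false (up v1) 4 (fun a => hil (cmp c.t a))
    fun a => hil (cmp c.t a) := by
  obtain ⟨x, f0, al⟩ := CA.G.all_thm c
  obtain ⟨y, gy, my⟩ := al.ini _ _ _ _ (mp c) fun a => cf c _ _
  have vv : ∀ a b (f : Sch), HasCompactSupport f →
      (y (pr.symm (a, b)) : TPD.TT D) f = (c.t a b (ev f) c.Q.vac : D) := fun a b f hf => by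
    simpa only [cmp, Equiv.apply_symm_apply] using (gy (pr.symm (a, b))).vv f hf
  have p := H _ _ (x.dat f0) al.ax (fun a b => y (pr.symm (a, b)))
    (fun a b => Submodule.subset_span ⟨_, y, _, my, rfl⟩)
    (fun w a b hw => (al.out.lor.geo _ _ y w _ my hw).trans (congrArg _ (gw2 w y a b)))
    (fun a b => Subtype.ext (al.ext.extv _ _ fun f hf => by
      rw [vv _ _ f hf, vv _ _ f hf, c.hT.symm a b _ _ ⟨f, rfl⟩]))
    (Subtype.ext (al.ext.extv _ _ fun f hf => by
      have := congrArg (Completion.toComplL (𝕜 := ℂ)) (c.hT.traceless _ c.Q.vac ⟨f, rfl⟩)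
      simpa only [map_sum, map_smul, map_zero, Completion.coe_toComplL, Submodule.coe_sum,
        Submodule.coe_smul, ContinuousLinearMap.sum_apply, ContinuousLinearMap.smul_apply,
        vv _ _ f hf, Submodule.coe_zero, ContinuousLinearMap.zero_apply] using this))
    (fun b => Subtype.ext (al.ext.extv _ _ fun f hf => by
      have := congrArg (Completion.toComplL (𝕜 := ℂ)) (c.hT.conserved b _ c.Q.vac ⟨f, rfl⟩)
      simpa only [map_sum, map_zero, Completion.coe_toComplL, Submodule.coe_sum, G.Ops.dat, x.hP,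
        ContinuousLinearMap.sum_apply, ContinuousLinearMap.comp_apply,
        vv _ _ _ (AX1.hcs_dS hf _), KDa.ev_dS, CA.dv_bas, Submodule.coe_zero,
        ContinuousLinearMap.zero_apply] using this))
  refine ⟨fun a => ⟨_, loc c _ _⟩, fun a => (loc c _ _).adj, fun a s L f v z hs hL hf => ?_,
    fun X hX => al.act X _ _ _ _ _ _ hX (fun a => (gy a).cf.l) (fun _ _ _ _ => ⟨rfl, rfl⟩)
      fun a f v hf => ?_⟩
  · simp only [hil, Completion.inner_coe, mp c a s L f v hs hL hf, inner_sum, inner_smul_right,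
      c.Q.U_inner _ _ _ _ _ hs hL]
  · obtain ⟨q, b, r, w, hX⟩ := hX
    refine al.phi gy my (fun μ => ?_) hX a f v hf
    obtain ⟨⟨i, j⟩, rfl⟩ := pr.symm.surjective μ
    exact p i j b

end

end Vale.Agent.N352.T
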