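import Vale.Agent.N352.G.Wz
import Vale.Agent.N352.T.Key
import Vale.Agent.N352.T.Wire
import Vale.Agent.N352.DefT

/-!
# N352, block T: the theorem
-/

set_option linter.all false

open Filter Topology

namespace Vale.Agent.N352.T

open P352.GF P352R P352R.P F
open UniformSpace (Completion)

noncomputable section

universe u v

variable {D : Type u} {D' : Type v} [NormedAddCommGroup D] [InnerProductSpace ℂ D]
  [NormedAddCommGroup D'] [InnerProductSpace ℂ D'] {Q : Theory D} {G : D → D}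
  {T : Ix → Ix → Fld D} {A : (V → V) → D → D} {Γ : Completion D →L[ℂ] Completion D}

open P352 P352X H496 in
/-- the traceless stress tensor is primary -/
theorem cnf (H : DTA.{u}) (g : P.Gr Q G) {t} (k : Cm Q G T t) : Dt.Cnf Q G T t := by
  obtain ⟨S, L, hS, hL, rfl⟩ := k.1.form
  have h7 := isImpr hS ⟨rfl, rfl, fun _ h => h, fun _ h => h⟩ hL k.1.impr.traceless
  let M := gm g
  have p := Br.prim <| prim_cx ⟨Q, _, G, isT_of_impr h7 hS,
    fun m n k l f g v hf hg h => sub_eq_zero.1 (h7.self m n k l f g v hf hg h), h7.cov,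
    ⟨_, hS.bose o o⟩, g.inv, g.herm, fun m n f v hf => by
      show _ = M _
      simp only [improve, map_add, map_sub, map_smul, map_sum, g.bose _ _ v (hS.bose m n) hf,
        fun k l => g.bose _ _ v hL.1 (Ap.test_pd k (Ap.test_pd l hf))]
      rfl, g.GU,
    fun C hC => by
      obtain ⟨C1, C2, a1, a2, e⟩ := g.split C hC
      refine ⟨2, ![1, -1], ![C1, C2], fun j => ?_, fun k v hk => ?_⟩
      · fin_cases j
        exacts [Q.bose_fld _ a1, a2.1]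
      · rw [e k _ hk, g.bose C1 k v a1 hk, a2.2 k v hk, show G _ = M _ from rfl, map_add, map_neg]
        simp [M, gm, g.inv],
    g.mul, k.2⟩ H
  exact ⟨conf k.1, new (Br.new (CA.G.up v1)), _, _, pr.bijective, rho,
    fun a => (p.loc a).imp fun _ l =>
    ⟨l.1, l.2, l.3, l.4, l.5, fun C C' f g v z u u' w _ => l.6 C C' f g v z u u' w⟩, p.adj, p.cov,
    fun X x => acts (p.act X (kil.1 x))⟩

variable (D' Q Γ T) in
/-- the analytic results on the generated domain -/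
def Kit (N : Set V → VonNeumannAlgebra (Completion D)) : Prop := ∀ (R : Theory D') i G' T',
  Sect Q R i → Gr R G' → Stress0 R T' → Dn.PGen R T' →
  (∀ m n, Xt i (T m n) (T' m n)) → ∃ S S', Q.IsStress S ∧ R.IsStress S' ∧ Dn.Same R T' S' ∧
    (∀ m n, Xt i (S m n) (S' m n)) ∧ (∃ (E : Submodule ℂ (Completion D)) (P : Theory E)
      (G1 : E → E) (e : Fld D → Fld E) (t : Ix → Ix → Fld E), Ext Q Γ N P G1 e ∧ Desc P G1 t ∧
      ∀ R, IsEnl P R → Gr R G1 → Cm R G1 (fun m n => e (S m n)) t) ∧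
    (Max Q Γ N R i → ∃ t, Cm R G' T' t)

theorem kitN {N} (n : P352R.G.LNg Q G A Γ N) (m : MfA Q) (l : FSL Q) (s : Stress0 Q T)
    (p : PCh Q T A) (k : Dn.IVac Q) : Kit D' Q T Γ N := fun R i G' T' a b c d e => by
  let x : P352X.EG.Cg D := ⟨Q, G, A, Γ, N, Br.lng.1 n⟩
  have m := Br.mfa.1 m
  have s := Br.stress0.1 s
  obtain ⟨S, S', h1, h2, h3, -, h4, h5⟩ := four (U.rows D) x m l k s p a b c d e
  exact ⟨S, S', h1, h3, h4, h5, exten (U.rows D) x m l k h1 h2,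
    key (U.rows D) x m l k s p a b c d e⟩

theorem kitE (g : GI.Ge Q G A) (x : ∀ v : D, Γ v = (G v : D)) (m : MfA Q) (l : FSL Q)
    (s : Stress0 Q T) (p : PCh Q T A) (k : Dn.IVac Q) (r : Di.Reg1 Q G T A) :
    Kit D' Q T Γ (E.Mn.N1 D) := fun R i G' T' a b c d e => by
  have v := Pf.cova (Br.gr.1 g.toGr) (Br.mfa.1 m) l
  have h : Di.Hb Q G T A := ⟨Bg.ge.2 g, Bg.stress0.2 s, p, k, v,
    fun m n => Bg.fsl.2 l _ (Q.bose_fld _ (s.bose m n))⟩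
  obtain rfl : (E.Tp.cf h.toGe).Γ = Γ := P352X.EG.SGx.dext fun v =>
    ((E.Tp.cf h.toGe).hN.ext v).trans (x v).symm
  obtain ⟨S, S', h1, h2, h3, h4, h5⟩ := fourE h r a b c d e
  obtain ⟨E, P, G1, e, t, a1, a2, a3⟩ := extenE _ (E.cov0_of (c := E.Tp.cf h.toGe) v) h2
  exact ⟨S, S', h1, h3, h4, h5, ⟨E, P, G1, e, t, a1, a2 (Br.mfa.1 m) l, a3⟩,
    keyE _ h2 a b h3 h4 h5⟩

open Gz (exn maz prep pgx tf st pc iv self ext_congr conf_congr)

variable {N : Set V → VonNeumannAlgebra (Completion D)} (H : Dn.Hz Q G T Γ N)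
include H

variable {h : Ok Q} {A' : (V → V) → N352.cy Q → N352.cy Q} (m : MfA Q) (l : FSL Q)
  (a : GI.Ge (rs Q h) (rg Q G) A')
include m l a

theorem kn {M} (n : P352R.G.LNg (rs Q h) (rg Q G) A' (pg Q Γ) M) :
    Kit D' (rs Q h) (fun m n => rf Q (T m n)) (pg Q Γ) M :=
  kitN n (rs_mfa (h := h) m) (rs_fsl (h := h) l) (st H) (pc H m a) (iv H m l a)

theorem k1 (n : Dn.Lnt Q G Γ N) : ∃ M, Dl (pg Q Γ) (pb Q N) M ∧
    Kit D' (rs Q h) (fun m n => rf Q (T m n)) (pg Q Γ) M := by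
  have g := gr.1 H.grading
  obtain ⟨M, n', r⟩ := net_of' a (rs_mfa (h := h) m) rs_cy ((rs_rst (h := h)).net
    (rg_coe g H.even) n.1) ((rs_rst (h := h)).rel (n.2.elim (rel_of_aff g n.1) id))
  exact ⟨M, r, kn H m l a n'⟩

theorem k2 (e : Dn.EBd Q) (r : Dn.FBT Q T ∨ Dn.SL Q T) :
    Kit D' (rs Q h) (fun m n => rf Q (T m n)) (pg Q Γ) (E.Mn.N1 _) :=
  kitE a (pgx H) (rs_mfa (h := h) m) (rs_fsl (h := h) l) (st H) (pc H m a) (iv H m l a)
    ⟨rs_ebd (Bg.ge.2 a) e,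
      r.imp (rs_fbt (Bg.ge.2 a) (tf H)) fun r => .inl (rs_sl (tf H) H.stress.herm r)⟩

theorem k3 {R : Theory D} (n : Dn.IsEnl R Q) (g' : Dn.Gr R G) (f : Dn.Flds R)
    (r : Dn.Ana R ∨ Dn.EBd Q ∧ Dn.LEB R Q) :
    ∃ M, Kit D' (rs Q h) (fun m n => rf Q (T m n)) (pg Q Γ) M := by
  have g := gr.1 H.grading
  obtain ⟨Γ', M, n'⟩ := nets (rs Q h) _ A' (.inr ⟨rs_mfa (h := h) m, rs_fsl (h := h) l⟩)
    (.inr ⟨a, sb (enl.1 n) h, sb_enl, sb_gr g H.even (gr.1 g'), sb_flds f,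
      r.imp (fun r => ⟨rs_cy, sb_ana r⟩) fun r =>
        ⟨Bg.ebd.1 (rs_ebd (Bg.ge.2 a) r.1), sb_leb (Bg.ge.2 a) r.2⟩⟩)
  obtain rfl : Γ' = pg Q Γ := P352X.EG.SGx.dext fun v => (n'.ext v).trans (pgx H v).symm
  exact ⟨M, kn H m l a n'⟩

omit m l a

theorem kit : MfA Q ∧ FSL Q ∧ ∃ (h : Ok Q) (M : _), (Dn.Lnt Q G Γ N → Dl (pg Q Γ) (pb Q N) M) ∧
    Kit D' (rs Q h) (fun m n => rf Q (T m n)) (pg Q Γ) M := by
  obtain ⟨h, A, m, l, a⟩ := prep H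
  refine ⟨m, l, h, ?_⟩
  by_cases n : Dn.Lnt Q G Γ N
  · exact (k1 H m l a n).imp fun _ k => ⟨fun _ => k.1, k.2⟩
  rcases H.regular with n' | ⟨e, r⟩ | ⟨R, u, g', f, r⟩
  exacts [(n n').elim, ⟨_, fun k => (n k).elim, k2 H m l a e r⟩,
    (k3 H m l a u g' f r).imp fun _ k => ⟨fun k => (n k).elim, k⟩]

theorem use {M} (k : Kit D' (rs Q h) (fun m n => rf Q (T m n)) (pg Q Γ) M) {R : Theory D'}
    {i G' T'} (o : Dn.Over Q T R i G' T') : ∃ S S', (rs Q h).IsStress S ∧ R.IsStress S' ∧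
    Dn.Same R T' S' ∧ (∀ m n, Xt (i.comp (io Q)) (S m n) (S' m n)) ∧
    (∃ (E : Submodule ℂ (Completion (N352.cy Q))) (P : Theory E) (G1 : E → E) (e : _ → Fld E)
      (t : Ix → Ix → Fld E), Ext (rs Q h) (pg Q Γ) M P G1 e ∧ Desc P G1 t ∧
      ∀ R, IsEnl P R → Gr R G1 → Cm R G1 (fun m n => e (S m n)) t) ∧
    (Max (rs Q h) (pg Q Γ) M R (i.comp (io Q)) → ∃ t, Cm R G' T' t) :=
  k R _ G' T' (rs_sect (sect.1 o.sect)) (gr.1 o.grading)
    (st0_of (gr.1 o.grading) o.stress o.poincare) o.poincare fun m n f v hf =>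
      (congrArg i (rf_xt (tf H m n) f v hf)).trans (o.ext m n f _ hf)

theorem sup (p : DTA.{v}) {R : Theory D'} {i G' T'} (o : Dn.Over Q T R i G' T')
    (x : Dn.Maz Q G Γ N R i) : ∃ t, Dt.Cnf R G' T' t := by
  obtain ⟨-, -, h, M, r, k⟩ := kit (D' := D') H
  obtain ⟨-, -, -, -, -, -, -, k⟩ := use H k o
  exact (k (maz r x)).imp fun _ => cnf p (gr.1 o.grading)

omit H

theorem lnt : Dt.Lnt Q G Γ N ↔ Dn.Lnt Q G Γ N := ⟨fun h => ⟨h.1, h.2⟩, fun h => ⟨h.1, h.2⟩⟩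

theorem sl : Dt.SL Q T ↔ Dn.SL Q T := ⟨fun h => ⟨h.1⟩, fun h => ⟨h.1⟩⟩

theorem hz : Dt.Hz Q G T Γ N ↔ Dn.Hz Q G T Γ N :=
  ⟨fun h => ⟨h.1, h.2, h.3, h.4, h.5, h.6, h.7, h.8.casesOn (fun n => .net (lnt.1 n))
      (fun e => .energy ⟨e.1, e.2.imp_right sl.1⟩) fun R r => .sub R r⟩,
    fun h => ⟨h.1, h.2, h.3, h.4, h.5, h.6, h.7, h.8.casesOn (fun n => .net (lnt.2 n))
      (fun e => .energy ⟨e.1, e.2.imp_right sl.2⟩) fun R r => .sub R r⟩⟩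

theorem exn' {P : Theory D'} {k G' e} : Dt.Exn Q G Γ N P k G' e ↔ Dn.Exn Q G Γ N P k G' e :=
  ⟨fun h => ⟨h.1, fun n a b y O p q r s u X x =>
      (h.2 (lnt.2 n) a b y O p q r s u X x).imp (⟨·.1⟩) (⟨·.1⟩)⟩,
    fun h => ⟨h.1, fun n a b y O p q r s u X x =>
      (h.2 (lnt.1 n) a b y O p q r s u X x).imp (⟨·.1⟩) (⟨·.1⟩)⟩⟩

theorem maz' {R : Theory D'} {i} : Dt.Maz Q G Γ N R i ↔ Dn.Maz Q G Γ N R i :=
  ⟨fun h => ⟨fun E _ _ P k G' e L x => h.1 E P k G' e L (exn'.2 x)⟩,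
    fun h => ⟨fun E _ _ P k G' e L x => h.1 E P k G' e L (exn'.1 x)⟩⟩

variable (D D') in
/-- **the theorem** -/
theorem thz (p : DTA.{u}) (p' : DTA.{v}) : Dt.Thz D D' where
  conf Q G T Γ N H x := by
    have H := hz.1 H
    obtain ⟨m, l, -⟩ := kit (D' := D) H
    exact (sup H p (self H m l) (maz'.1 x)).imp fun t k => ⟨k, k.desc (mfa.2 m) (fsl.2 l)⟩
  sup Q G T Γ N R i G' T' H o x := sup (hz.1 H) p' o (maz'.1 x)
  ext Q G T Γ N H := by
    have H := hz.1 H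
    obtain ⟨m, l, h, M, z, k⟩ := kit (D' := D) H
    obtain ⟨S, S', a, b, c, d, ⟨E, P, G1, e, t, y, q, r⟩, -⟩ := use H k (self H m l)
    have s := fun m n => Q.bose_fld _ (b.bose m n)
    exact ⟨S', b, c, E, _, _, P, _, G1, _, t, exn'.2 (exn z y), desc q, fun R u w =>
      have r := r R (enl.1 u) (gr.1 w)
      cnf p (gr.1 w) ⟨conf_congr (fun m n f v hf => ext_congr y (rs_fld (s m n))
        ((rs Q h).bose_fld _ (a.bose m n)) (fun f v hf => (io Q).injective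
          ((rf_xt (s m n) f v hf).trans (d m n f v hf).symm)) hf v) r.1, r.2⟩⟩
  uni _ := Bg.ivac_of
  der Q G T Γ N m v H := (Gz.thz D D).der Q G T Γ N m v (hz.1 H)

/-- **the witness with a unique vacuum** -/
theorem wiz : ∃ (E : Type) (_ : NormedAddCommGroup E) (_ : InnerProductSpace ℂ E), Dt.Wiz E := by
  obtain ⟨E, _, _, Q, R, T, N, J, B, a, b, c, d, e, f, ⟨g, h, i⟩, k⟩ := Gz.wiz
  exact ⟨E, _, _, Q, R, T, N, J, B, hz.2 a, maz'.2 b, c, d, e, f, ⟨g, h, sl.2 i⟩, k⟩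

/-- **the witness with a degenerate vacuum** -/
theorem wizD : ∃ (E : Type) (_ : NormedAddCommGroup E) (_ : InnerProductSpace ℂ E), Dt.WizD E := by
  obtain ⟨E, _, _, Q, T, N, a, b, k⟩ := Gz.wizD
  exact ⟨E, _, _, Q, T, N, hz.2 a, maz'.2 b, k⟩

end

end Vale.Agent.N352.T
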