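import Vale.Agent.N352.T.Lin

/-!
# N352, block T, row PRT: a conserved symmetric traceless tensor of dimension four is primary
-/

set_option linter.all false

namespace Vale.Agent.N352.T

noncomputable section

variable {W H : Type*} [AddCommGroup W] [Module ℂ W] [NormedAddCommGroup H]
  [InnerProductSpace ℂ H] (A : TA W H)

/-- the scalar product of weights -/
def dt (a b : ℤ × ℤ) : ℤ := a.1 * b.1 + a.2 * b.2

/-- a transverse index -/
def tw : Fin 4 → Fin 4 := ![2, 2, 0, 0]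

theorem dt_add (a b c : ℤ × ℤ) : dt a (b + c) = dt a b + dt a c := by
  simp only [dt, Prod.fst_add, Prod.snd_add]
  ring

theorem g0 : ∀ β τ, g β τ = 0 ∨ wg β + wg τ = 0 := by
  simp only [all4, gv, true_or, true_and, and_true]
  refine ⟨.inr ?_, .inr ?_, .inr ?_, .inr ?_⟩ <;> decide

theorem dg (φ : Fin 4 → W) : ∀ τ σ, (2 * g τ σ) • φ (st τ) - (2 * g (st τ) σ) • φ τ =
    (4 * ep τ * (dt (wg (st τ)) (wg σ) : ℤ)) • φ σ := by
  simp only [all4, gv, sv, ev]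
  simp [dt, wg]
  norm_num

theorem ctr (φ : Fin 4 → W) (d : ℂ) : ∀ μ, ∑ τ, ep τ • (2 * g τ μ * d) • φ (st τ) = (4 * d) • φ μ := by
  simp only [all4, Fin.sum_univ_four, gv, sv, ev]
  refine ⟨?_, ?_, ?_, ?_⟩ <;> module

namespace TA

/-- the elements `K … K t` with a given weight -/
def Fam : ℕ → ℤ × ℤ → Submodule ℂ W
  | 0, ω => Submodule.span ℂ {z | ∃ α β, wg α + wg β = ω ∧ z = A.t α β}
  | j + 1, ω => ⨆ τ, (Fam j (ω - wg τ)).map (A.K τ)

variable {A} {j : ℕ} {ω : ℤ × ℤ} {z : W}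

theorem f0 (α β) (h : wg α + wg β = ω) : A.t α β ∈ A.Fam 0 ω :=
  Submodule.subset_span ⟨α, β, h, rfl⟩

theorem fK {ω'} (τ) (h : z ∈ A.Fam j ω) (e : ω + wg τ = ω') : A.K τ z ∈ A.Fam (j + 1) ω' :=
  Submodule.mem_iSup_of_mem τ (Submodule.mem_map_of_mem (by rwa [← e, add_sub_cancel_right]))

theorem rec' (N : ℕ → ℤ × ℤ → Submodule ℂ W) (h0 : ∀ α β, A.t α β ∈ N 0 (wg α + wg β))
    (h1 : ∀ j ω τ, ∀ z ∈ A.Fam j ω, z ∈ N j ω → A.K τ z ∈ N (j + 1) (ω + wg τ)) :
    ∀ j ω, A.Fam j ω ≤ N j ω := by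
  intro j
  induction j with
  | zero => exact fun ω => Submodule.span_le.2 (by rintro _ ⟨α, β, rfl, rfl⟩; exact h0 α β)
  | succ j ih =>
    refine fun ω => iSup_le fun τ => ?_
    rintro _ ⟨z, hz, rfl⟩
    simpa only [sub_add_cancel] using h1 j _ τ z hz (ih _ hz)

theorem fW (h : z ∈ A.Fam j ω) : z ∈ A.Wd (4 - j) :=
  rec' (A := A) (fun j _ => A.Wd (4 - j)) (fun α β => by simpa using A.wt α β) (fun j ω τ z _ h => by
    simpa only [Nat.cast_succ, sub_add_eq_sub_sub] using A.wK _ τ z h) j ω h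

theorem sm {N : Submodule ℂ W} {β τ} (h : wg β + wg τ = 0 → z ∈ N) : (2 * g β τ) • z ∈ N :=
  (g0 β τ).elim (fun e => by rw [e, mul_zero, zero_smul]; exact N.zero_mem) fun e =>
    N.smul_mem _ (h e)

theorem fM (α β) (h : z ∈ A.Fam j ω) : A.M α β z ∈ A.Fam j (ω + wg α + wg β) := by
  refine rec' (fun j ω => (A.Fam j (ω + wg α + wg β)).comap (A.M α β)) (fun γ δ => ?_)
    (fun j ω τ z h k => ?_) j ω h
  · rw [Submodule.mem_comap, A.Mt]
    refine sub_mem (add_mem (sub_mem ?_ ?_) ?_) ?_ <;>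
      exact sm fun e => f0 _ _ (by linear_combination (exp := 1) -e)
  · rw [Submodule.mem_comap, A.MK _ α β τ z (fW h)]
    refine sub_mem (add_mem (fK τ k (by abel)) ?_) ?_ <;>
      exact sm fun e => fK _ h (by linear_combination (exp := 1) -e)

theorem fB (τ) (h : z ∈ A.Fam j ω) :
    A.M (st τ) τ z = (4 * ep τ * (dt (wg (st τ)) ω : ℤ)) • z := by
  refine rec' (A := A) (fun _ ω => LinearMap.eqLocus (A.M (st τ) τ)
    ((4 * ep τ * (dt (wg (st τ)) ω : ℤ)) • LinearMap.id)) (fun γ δ => ?_)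
      (fun j ω σ z h k => ?_) j ω h
  · rw [LinearMap.mem_eqLocus, LinearMap.smul_apply, LinearMap.id_apply, A.Mt, dt_add,
      add_sub_assoc, dg (fun α => A.t α δ), dg (A.t γ)]
    push_cast
    module
  · rw [LinearMap.mem_eqLocus, LinearMap.smul_apply, LinearMap.id_apply] at k ⊢
    rw [A.MK _ _ _ σ z (fW h), k, add_sub_assoc,
      dg (fun α => A.K α z), dt_add, map_smul]
    push_cast
    module

theorem par (h : z ∈ A.Fam j ω) (e : (ω.1 + ω.2 + j) % 2 = 1) : z = 0 := by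
  have w : ∀ τ, ((wg τ).1 + (wg τ).2) % 2 = 1 := by decide
  have := rec' (A := A) (fun j ω => if (ω.1 + ω.2 + j) % 2 = 1 then ⊥ else ⊤) (fun α β => ?_)
    (fun j ω τ z _ k => ?_) j ω h
  · rwa [if_pos e] at this
  · have := w α
    have := w β
    rw [if_neg (by simp only [Prod.fst_add, Prod.snd_add]; omega)]
    trivial
  · have := w τ
    split_ifs with p
    · rw [if_pos (by simp only [Prod.fst_add, Prod.snd_add] at p; omega)] at k
      rw [(Submodule.mem_bot ℂ).1 k, map_zero]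
      exact zero_mem _
    · trivial

/-- positivity -/
theorem pos {d s : ℤ} (τ) (h : z ∈ A.Wd d) (p : ∀ σ, A.K σ z = 0)
    (e : A.M (st τ) τ z = (4 * ep τ * (s : ℂ)) • z) : (d + s < 0 → z = 0) ∧
      (d + s = 0 → A.P (st τ) z = 0 ∧ ∀ y, inner ℂ (A.ip (A.K τ y)) (A.ip z) = 0) := by
  obtain ⟨j, hj, pj, a⟩ := A.adj d τ z h p
  have e1 : ∀ τ, ep τ * g (st τ) τ = 2 ∧ ep τ * ep τ = 1 ∧ ep τ ≠ 0 := by
    simp only [all4, gv, sv, ev]
    norm_num
  have k : A.K τ (j - (4 * ep τ) • A.P (st τ) z) = ((16 * (d + s) : ℝ) : ℂ) • z := by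
    rw [map_sub, pj, map_smul, A.KP d τ _ z h, p, map_zero, e]
    push_cast
    linear_combination (norm := module) ((8 * (d : ℂ)) * (e1 τ).1 + (16 * (s : ℂ)) * (e1 τ).2.1) • z
  have n := a (j - (4 * ep τ) • A.P (st τ) z)
  rw [k, map_smul, inner_smul_left, Complex.conj_ofReal, inner_self_eq_norm_sq_to_K,
    inner_self_eq_norm_sq_to_K] at n
  have n' : 16 * ((d : ℝ) + s) * ‖A.ip z‖ ^ 2 = ‖A.ip (j - (4 * ep τ) • A.P (st τ) z)‖ ^ 2 := by
    refine Complex.ofReal_injective ?_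
    rw [Complex.ofReal_mul, Complex.ofReal_pow, Complex.ofReal_pow]
    exact n
  refine ⟨fun l => A.inj ?_, fun l => ?_⟩
  · have l' : (d : ℝ) + s < 0 := by exact_mod_cast l
    rw [map_zero, ← norm_eq_zero]
    refine pow_eq_zero_iff two_ne_zero |>.1 (le_antisymm ?_ (sq_nonneg _))
    nlinarith [sq_nonneg ‖A.ip (j - (4 * ep τ) • A.P (st τ) z)‖]
  have l' : (d : ℝ) + s = 0 := by exact_mod_cast l
  rw [l', mul_zero, zero_mul, eq_comm, sq_eq_zero_iff, norm_eq_zero] at n'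
  refine ⟨?_, fun y => by rw [a, n', inner_zero_right]⟩
  have q := sub_eq_zero.1 (A.inj (n'.trans (map_zero _).symm))
  have := A.ind d j hj (q ▸ (A.Wd _).smul_mem _ (A.wP d _ z h))
  rw [this, eq_comm, smul_eq_zero] at q
  exact q.resolve_left (mul_ne_zero (by norm_num) (e1 τ).2.2)

variable (p : ∀ ω, ∀ z ∈ A.Fam (j + 1) ω, z = 0)
include p

theorem pos' (τ) (h : z ∈ A.Fam j ω) : (4 - j + dt (wg (st τ)) ω < 0 → z = 0) ∧
    (4 - j + dt (wg (st τ)) ω = 0 →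
      A.P (st τ) z = 0 ∧ ∀ y, inner ℂ (A.ip (A.K τ y)) (A.ip z) = 0) :=
  pos τ (fW h) (fun σ => p _ _ (fK σ h rfl)) (fB τ h)

/-- the strict bound for the weights of primaries -/
theorem van (τ) (hj : (4 - j : ℤ) ≠ 0) (h : z ∈ A.Fam j ω) (e : 4 - j + dt (wg (st τ)) ω ≤ 0) :
    z = 0 := by
  refine e.lt_or_eq.elim (pos' p τ h).1 fun e => ?_
  have w := fW h
  have k : ∀ σ, dt (wg (st τ)) (wg σ) = 0 → g σ (st τ) = 0 → A.P σ z = 0 := fun σ a b => by
    have c : ∀ τ, dt (wg (st τ)) (wg τ) = -1 := by decide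
    have c' : ∀ τ, 2 * g τ (st τ) ≠ 0 := by
      simp only [all4, gv, sv]
      norm_num
    have := A.MP _ τ σ (st τ) z w
    rw [((pos' p τ h).2 e).1, (pos' p τ (fM τ σ h)).1 (by rw [dt_add, dt_add, a, c]; omega), b,
      map_zero, map_zero, mul_zero, zero_smul, add_zero, zero_sub, eq_comm, neg_eq_zero,
      smul_eq_zero] at this
    exact this.resolve_left (c' τ)
  have c : ∀ τ, dt (wg (st τ)) (wg (tw τ)) = 0 ∧ dt (wg (st τ)) (wg (st (tw τ))) = 0 := by decide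
  have c' : ∀ τ, g (tw τ) (st τ) = 0 ∧ g (st (tw τ)) (st τ) = 0 ∧ g (tw τ) (st (tw τ)) ≠ 0 ∧
      g (st (tw τ)) (tw τ) = g (tw τ) (st (tw τ)) := by
    simp only [all4]
    simp [tw, sv, gv]
  have a := A.KP _ (st (tw τ)) (tw τ) z w
  have b := A.KP _ (tw τ) (st (tw τ)) z w
  rw [k _ (c τ).1 (c' τ).1, p _ _ (fK _ h rfl), map_zero, map_zero] at a
  rw [k _ (c τ).2 (c' τ).2.1, p _ _ (fK _ h rfl), map_zero, map_zero, A.as, (c' τ).2.2.2] at b
  have : (4 * g (tw τ) (st (tw τ)) * ((4 - j : ℤ) : ℂ)) • z = 0 := by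
    linear_combination (norm := module) a + b
  exact (smul_eq_zero.1 this).resolve_left
    (mul_ne_zero (mul_ne_zero (by norm_num) (c' τ).2.2.1) (Int.cast_ne_zero.2 hj))

omit p

theorem l4 (ω) : ∀ z ∈ A.Fam 4 ω, z = 0 := fun z h => by
  have p : ∀ ω, ∀ z ∈ A.Fam (4 + 1) ω, z = 0 := fun ω z h => A.neg z (fW h)
  have c : ∀ τ, wg (st (st τ)) = -wg (st τ) := by decide
  by_contra n
  have k : ∀ τ y, inner ℂ (A.ip (A.K τ y)) (A.ip z) = 0 := fun τ => ((pos' p τ h).2 (by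
    have a := mt (pos' p τ h).1 n
    have b := mt (pos' p (st τ) h).1 n
    simp only [c, dt, Prod.fst_neg, Prod.snd_neg, neg_mul] at a b ⊢
    omega)).2
  have : A.Fam 4 ω ≤ LinearMap.ker ((innerₛₗ ℂ (A.ip z)).comp A.ip) := iSup_le fun τ => by
    rintro _ ⟨y, -, rfl⟩
    exact inner_eq_zero_symm.1 (k τ y)
  exact n (A.inj ((inner_self_eq_zero.1 (this h)).trans (map_zero _).symm))

theorem l3 (ω) : ∀ z ∈ A.Fam 3 ω, z = 0 := fun z h => by
  by_contra n
  have k := fun τ => mt (van (j := 3) l4 τ (by norm_num) h) n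
  have := mt (par h) n
  simp only [all4, sv] at k
  simp [dt, wg] at k
  omega

theorem l2 {n m a b} (h : hi (wg n + wg m + wg a + wg b)) : A.K n (A.K m (A.t a b)) = 0 := by
  by_contra e
  have k := fun τ => mt (van (j := 2) (ω := wg n + wg m + wg a + wg b) l3 τ (by norm_num)
    (fK n (fK m (f0 a b rfl) rfl) (by abel))) e
  generalize wg n + wg m + wg a + wg b = ω at h k
  simp only [all4, sv] at k
  simp [dt, wg] at k
  unfold hi at h
  omega

theorem kc {d} {φ : Fin 4 → W} (h : ∀ γ, φ γ ∈ A.Wd d) (μ) :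
    A.K μ (∑ τ, ep τ • A.P τ (φ (st τ))) = ∑ τ, ep τ • A.P τ (A.K μ (φ (st τ))) -
      ((4 * d : ℂ) • φ μ + ∑ τ, ep τ • A.M τ μ (φ (st τ))) := by
  simp only [map_sum, map_smul, A.KP d _ _ _ (h _), smul_sub, Finset.sum_sub_distrib, ctr]
  rw [sub_sub]

theorem w1 (m a b) : A.K m (A.t a b) ∈ A.Wd 3 := A.wK 4 m _ (A.wt a b)

theorem mm1 (α β m a b) : A.M α β (A.K m (A.t a b)) =
    m1 (fun m a b => A.K m (A.t a b)) α β m a b := by
  simp only [A.MK 4 _ _ _ _ (A.wt a b), A.Mt, m1, map_add, map_sub, map_smul]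
  abel

theorem km1 (l α β m a b) : A.K l (A.M α β (A.K m (A.t a b))) =
    m1 (fun m a b => A.K l (A.K m (A.t a b))) α β m a b := by
  simp only [mm1, m1, map_add, map_sub, map_smul]

theorem mm2 (α β n m a b) : A.M α β (A.K n (A.K m (A.t a b))) =
    m2 (fun n m a b => A.K n (A.K m (A.t a b))) α β n m a b := by
  rw [A.MK 3 _ _ _ _ (w1 m a b), km1, m2]
  abel

theorem c1 (m b) : ∑ τ, ep τ • A.P τ (A.K m (A.t (st τ) b)) = 0 := by
  have := kc (fun γ => A.wt γ b) m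
  rw [A.con, map_zero, eq_comm, sub_eq_zero] at this
  rw [this]
  clear this
  revert m b
  simp only [A.Mt, all4, Fin.sum_univ_four, gv, sv, ev, sy A.sym, ← A.trl]
  push_cast
  refine ⟨⟨?_, ?_, ?_, ?_⟩, ⟨?_, ?_, ?_, ?_⟩, ⟨?_, ?_, ?_, ?_⟩, ?_, ?_, ?_, ?_⟩ <;> module

theorem c2 (n m b) : ∑ τ, ep τ • A.P τ (A.K n (A.K m (A.t (st τ) b))) =
    (12 : ℂ) • A.K m (A.t n b) + ∑ τ, ep τ • A.M τ n (A.K m (A.t (st τ) b)) := by
  have := kc (fun γ => w1 (A := A) m γ b) n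
  rw [c1, map_zero, eq_comm, sub_eq_zero] at this
  rw [this]
  norm_num

theorem k2 : ∀ n m a b, A.K n (A.K m (A.t a b)) = 0 := by
  refine lin2 (fun n m a b => A.K n (A.K m (A.t a b)))
    (fun n m => funext₂ fun a b => A.KK 4 n m _ (A.wt a b)) (fun n m a b => by rw [A.sym])
    (fun n m => by rw [A.trl]) (fun n m a b => l2) (fun α β n m a b h => ?_) fun l n m b => ?_
  · rw [← mm2, show A.K n _ = 0 from h, map_zero]
  have := kc (fun γ => A.wK 3 n _ (w1 (A := A) m γ b)) l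
  simp only [c2, l3 _ _ (fK l (fK n (fK m (f0 _ b rfl) rfl) rfl) rfl), map_zero, smul_zero,
    Finset.sum_const_zero, map_add, map_smul, map_sum, km1, mm2] at this
  push_cast at this
  linear_combination (norm := module) this

end TA

open TA in
theorem prt : PRT := fun W H _ _ _ _ A =>
  lin1 (fun m a b => A.K m (A.t a b)) (fun m a b => by rw [A.sym]) (fun m => by rw [A.trl])
    fun n m b => by simpa only [k2, map_zero, smul_zero, Finset.sum_const_zero, mm1] using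
      (c2 (A := A) n m b).symm

end

end Vale.Agent.N352.T
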