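import Vale.Agent.N352.T.Spec
import Vale.Agent.P352X.CG.Wire

/-!
# N352, block T: from the conformal algebra in an orthonormal frame to the null tetrad
-/

set_option linter.all false

namespace Vale.Agent.N352.T

open Vale.Agent.P352.GF Vale.Agent.P352X.CA.G
open Vale.Agent.P352X (Rp)
open Vale.Agent.P352X.CA (As wd th e0)
open Complex (I)
open scoped ComplexConjugate

noncomputable section

/-- the tetrad -/
def u : Fin 4 → Ix → ℂ := ![![1, 0, 0, 1], ![1, 0, 0, -1], ![0, 1, I, 0], ![0, 1, -I, 0]]

/-- the metric -/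
def hh (m n : Ix) : ℂ := if m = n then (eta m : ℂ) else 0

theorem hh_comm (m n : Ix) : hh m n = hh n m := by
  unfold hh
  by_cases h : m = n
  · simp [h]
  · simp [h, Ne.symm h]

section tv

variable {E E' : Type*} [AddCommGroup E] [Module ℂ E] [AddCommGroup E'] [Module ℂ E']

/-- the components in the tetrad -/
def tv (τ : Fin 4) (R : Ix → E) : E := ∑ m, u τ m • R m

theorem tv_add (τ) (R R' : Ix → E) : tv τ (fun m => R m + R' m) = tv τ R + tv τ R' := by
  simp only [tv, smul_add, Finset.sum_add_distrib]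

theorem tv_sub (τ) (R R' : Ix → E) : tv τ (fun m => R m - R' m) = tv τ R - tv τ R' := by
  simp only [tv, smul_sub, Finset.sum_sub_distrib]

theorem tv_neg (τ) (R : Ix → E) : tv τ (fun m => -R m) = -tv τ R := by
  simp only [tv, smul_neg, Finset.sum_neg_distrib]

theorem tv_smul (τ) (c : ℂ) (R : Ix → E) : tv τ (fun m => c • R m) = c • tv τ R := by
  simp only [tv, Finset.smul_sum, smul_comm c]

theorem tv_smul' (τ) (c : Ix → ℂ) (z : E) : tv τ (fun m => c m • z) = tv τ c • z := by
  simp only [tv, Finset.sum_smul, smul_smul, smul_eq_mul]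

theorem tv_comm (α β) (X : Ix → Ix → E) :
    tv α (fun m => tv β fun n => X m n) = tv β fun n => tv α fun m => X m n := by
  simp only [tv, Finset.smul_sum]
  rw [Finset.sum_comm]
  exact Finset.sum_congr rfl fun _ _ => Finset.sum_congr rfl fun _ _ => smul_comm _ _ _

theorem tv_map (f : E →ₗ[ℂ] E') (τ) (R : Ix → E) : f (tv τ R) = tv τ fun m => f (R m) := by
  simp only [tv, map_sum, map_smul]

theorem tv_ap (τ) (R : Ix → E →ₗ[ℂ] E') (z : E) : tv τ R z = tv τ fun m => R m z := by
  simp only [tv, LinearMap.sum_apply, LinearMap.smul_apply]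

theorem tv_mem {N : Submodule ℂ E} (τ) {R : Ix → E} (h : ∀ m, R m ∈ N) : tv τ R ∈ N :=
  N.sum_mem fun m _ => N.smul_mem _ (h m)

theorem tv_congr (τ) {R R' : Ix → E} (h : ∀ m, R m = R' m) : tv τ R = tv τ R' :=
  congrArg _ (funext h)

theorem tv0 (R : Ix → E) : tv 0 R = R 0 + R 3 := by simp [tv, u, Fin.sum_univ_four]
theorem tv1 (R : Ix → E) : tv 1 R = R 0 - R 3 := by
  simp [tv, u, Fin.sum_univ_four, sub_eq_add_neg]
theorem tv2 (R : Ix → E) : tv 2 R = R 1 + I • R 2 := by simp [tv, u, Fin.sum_univ_four]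
theorem tv3 (R : Ix → E) : tv 3 R = R 1 - I • R 2 := by
  simp [tv, u, Fin.sum_univ_four, sub_eq_add_neg]

theorem tv_inv {R : Ix → E} (h : ∀ τ, tv τ R = 0) (m : Ix) : R m = 0 := by
  have h0 := (tv0 R).symm.trans (h 0)
  have h1 := (tv1 R).symm.trans (h 1)
  have h2 := (tv2 R).symm.trans (h 2)
  have h3 := (tv3 R).symm.trans (h 3)
  have e0 : R 0 = 0 := by
    linear_combination (norm := module) (1 / 2 : ℂ) • h0 + (1 / 2 : ℂ) • h1
  have e1 : R 1 = 0 := by
    linear_combination (norm := module) (1 / 2 : ℂ) • h2 + (1 / 2 : ℂ) • h3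
  fin_cases m
  · exact e0
  · exact e1
  · rw [e1, zero_add] at h2
    exact (smul_eq_zero.1 h2).resolve_left Complex.I_ne_zero
  · rwa [e0, zero_add] at h0

end tv

theorem tv_g (α β : Fin 4) : tv α (fun m => tv β fun n => hh m n) = g α β := by
  fin_cases α <;> fin_cases β <;>
    simp [tv, u, g, hh, eta, o, Fin.sum_univ_four] <;> norm_num

theorem tv_g' (c : ℂ) (α β : Fin 4) : tv α (fun m => tv β fun n => c * hh m n) = c * g α β := by
  rw [← tv_g, ← smul_eq_mul, ← tv_smul]
  exact tv_congr _ fun m => tv_smul β c _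

section ext

variable {E : Type*} [AddCommGroup E] [Module ℂ E]

theorem tv_rot (X : Ix → Ix → Ix → E) (α β τ) :
    tv τ (fun c => tv α fun m => tv β fun n => X m n c) =
      tv α fun m => tv β fun n => tv τ fun c => X m n c :=
  (tv_comm τ α _).trans (tv_congr _ fun m => tv_comm τ β _)

/-- the action of the Lorentz charges on a vector -/
theorem ext3 {X Z : Ix → Ix → Ix → E} {Y : Ix → E}
    (h : ∀ m n c, X m n c = Z m n c + (2 * hh n c) • Y m - (2 * hh m c) • Y n) (α β τ) :
    tv τ (fun c => tv α fun m => tv β fun n => X m n c) =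
      tv α (fun m => tv β fun n => tv τ fun c => Z m n c) +
        (2 * g β τ) • tv α Y - (2 * g α τ) • tv β Y := by
  rw [tv_rot]
  simp only [h, tv_add, tv_sub, tv_smul']
  congr 1
  · rw [tv_g', tv_smul]
  · simp only [tv_smul]
    rw [tv_smul', tv_g']

end ext

variable {W H : Type*} [AddCommGroup W] [Module ℂ W] [NormedAddCommGroup H]
  [InnerProductSpace ℂ H] {A : Dat W H}

theorem sg_up (k : Rp) (w : Ix → V) (a c : Ix) (ν μ : Fin k.n) :
    sg (up k) w (ic a ν) (ic c μ) =
      (if ν = μ then (w a c : ℂ) else 0) + if a = c then sg k w ν μ else 0 := by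
  simp only [sg, up, Matrix.of_apply, i1_ic, i2_ic, mul_add, Finset.sum_add_distrib, ite_and,
    mul_ite, mul_one, mul_zero]
  congr 1
  · simp
  · by_cases h : a = c <;> simp [h]

theorem as_c {w : Ix → V} (hw : As w) (a c : Ix) :
    (eta c : ℂ) * w a c = -(eta a * w c a) := by exact_mod_cast hw a c

/-- the commutator of a Lorentz charge and a vector of operators -/
theorem mr (l : A.LOR) {R : V → W →ₗ[ℂ] W} {d d' : ℂ}
    (hR : ∀ k y, A.Mu k d y → A.Mu (up k) d' (cons k R y)) {w : Ix → V} (hw : As w) (c : Ix) :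
    ∀ z ∈ A.Wd d, A.M w (R (bas c 1) z) =
      R (bas c 1) (A.M w z) + ∑ a, (w c a : ℂ) • R (bas a 1) z := by
  intro z hz
  induction hz using Submodule.span_induction with
  | mem z hz =>
    obtain ⟨k, y, μ, hy, rfl⟩ := hz
    have h1 := l.geo _ _ _ w (ic c μ) (hR k y hy) hw
    have h2 : gw (up k) w (cons k R y) (ic c μ) = ∑ a, ((w a c : ℂ) * eta a) • R (bas a 1) (y μ) +
        (eta c : ℂ) • R (bas c 1) (gw k w y μ) := by
      unfold gw
      refine (sum_ic _).trans ?_
      simp only [sg_up, add_smul, Finset.sum_add_distrib, ite_smul, zero_smul,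
        Finset.sum_ite_eq', Finset.mem_univ, if_true]
      rw [Finset.sum_comm (s := Finset.univ (α := Ix))]
      simp only [Finset.sum_ite_eq', Finset.mem_univ, if_true, cons, i1_ic, i2_ic, smul_smul,
        map_sum, map_smul, Finset.smul_sum, mul_comm]
    rw [h2] at h1
    simp only [cons, i1_ic, i2_ic, map_smul] at h1
    have h3 : ∀ a, (w c a : ℂ) = -(eta c * ((w a c : ℂ) * eta a)) := fun a => by
      linear_combination (eta a : ℂ) * as_c hw a c - (w c a : ℂ) * Tow.eta2 a
    rw [l.geo k d y w μ hy hw, map_neg]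
    simp only [h3, neg_smul, Finset.sum_neg_distrib, mul_smul (eta c : ℂ), ← Finset.smul_sum]
    rw [← one_smul ℂ (A.M w _), ← one_smul ℂ (R (bas c 1) (gw k w y μ)), ← Tow.eta2 c, mul_smul, h1]
    module
  | zero => simp
  | add a b _ _ ha hb =>
    simp only [map_add, ha, hb, smul_add, Finset.sum_add_distrib]
    abel
  | smul r a _ ha => simp only [map_smul, ha, smul_add, Finset.smul_sum, smul_comm r]

theorem wd_bas (m n c a : Ix) : (wd (bas m 1) (bas n 1) c a : ℂ) =
    (if a = m then 2 * hh n c else 0) - if a = n then 2 * hh m c else 0 := by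
  simp only [wd, bas, hh]
  by_cases h1 : a = m <;> by_cases h2 : a = n <;> by_cases h3 : c = n <;> by_cases h4 : c = m <;>
    simp_all [eq_comm]

theorem sum_wd (m n c : Ix) (Y : Ix → W) : ∑ a, (wd (bas m 1) (bas n 1) c a : ℂ) • Y a =
    (2 * hh n c) • Y m - (2 * hh m c) • Y n := by
  simp only [wd_bas, sub_smul, ite_smul, zero_smul, Finset.sum_sub_distrib, Finset.sum_ite_eq',
    Finset.mem_univ, if_true]

theorem mdot_bas (m n : Ix) : ((2 * mdot (bas m 1) (bas n 1) : ℝ) : ℂ) = 2 * hh m n := by
  simp only [mdot, bas, hh]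
  by_cases h : m = n
  · simp [h]
  · simp [h, Ne.symm h]

theorem mr' (h : A.Ax) (l : A.LOR) {R : V → W →ₗ[ℂ] W} {d d' : ℂ}
    (hR : ∀ k y, A.Mu k d y → A.Mu (up k) d' (cons k R y)) {z : W} (hz : z ∈ A.Wd d) (m n c : Ix) :
    A.M (wd (bas m 1) (bas n 1)) (R (bas c 1) z) =
      R (bas c 1) (A.M (wd (bas m 1) (bas n 1)) z) + (2 * hh n c) • R (bas m 1) z -
        (2 * hh m c) • R (bas n 1) z := by
  rw [mr l hR (h.mat.aswd _ _) c z hz, sum_wd m n c fun a => R (bas a 1) z, add_sub_assoc]

theorem kp (h : A.Ax) (dl : A.DIL) {d : ℂ} {z : W} (hz : z ∈ A.Wd d) (m n : Ix) :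
    A.K (bas n 1) (A.P (bas m 1) z) = A.P (bas m 1) (A.K (bas n 1) z) -
      (d.re * 2 * hh m n) • z - A.M (wd (bas m 1) (bas n 1)) z := by
  rw [h.KP, dl d z hz, mdot_bas, smul_smul]
  congr 3
  ring

/-- the special conformal charges commute -/
theorem kk (h : A.Ax) (m : A.MUL) (o : A.OUT) (a b : Ix) {d : ℂ} {z : W} (hz : z ∈ A.Wd d) :
    A.K (bas a 1) (A.K (bas b 1) z) = A.K (bas b 1) (A.K (bas a 1) z) := by
  set C := A.K (bas a 1) ∘ₗ A.K (bas b 1) - A.K (bas b 1) ∘ₗ A.K (bas a 1) with hC
  have k1 : ∀ (a b c : Ix) (e : ℂ), ∀ z ∈ A.Wd e,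
      A.K (bas a 1) (A.K (bas b 1) (A.P (bas c 1) z)) =
        A.P (bas c 1) (A.K (bas a 1) (A.K (bas b 1) z)) -
          ((e.re - 1) * 2 * hh c a) • A.K (bas b 1) z - ((e.re - 1) * 2 * hh c b) • A.K (bas a 1) z -
          A.K (bas b 1) (A.M (wd (bas c 1) (bas a 1)) z) -
          A.K (bas a 1) (A.M (wd (bas c 1) (bas b 1)) z) - (2 * hh a b) • A.K (bas c 1) z := by
    intro a b c e z hz
    rw [kp h o.dil hz, map_sub, map_sub, map_smul, kp h o.dil (m.WK e _ z hz),
      mr' h o.lor (m.K · e) hz]
    simp only [Complex.sub_re, Complex.one_re, Complex.ofReal_sub, Complex.ofReal_one]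
    module
  have k2 : ∀ (α : List Ix) (e : ℂ), ∀ z ∈ A.Wd e, C z = 0 → C (A.pw α z) = 0 := by
    intro α
    induction α with
    | nil => exact fun e z _ h0 => h0
    | cons c α ih =>
      intro e z hz h0
      refine ih (e + 1) _ (m.WP e (bas c 1) z hz) ?_
      have h1 : A.K (bas a 1) (A.K (bas b 1) z) = A.K (bas b 1) (A.K (bas a 1) z) :=
        sub_eq_zero.1 h0
      change A.K _ (A.K _ _) - A.K _ (A.K _ _) = 0
      rw [k1 a b c e z hz, k1 b a c e z hz, h1, hh_comm a b]
      abel
  refine sub_eq_zero.1 (?_ : C z = 0)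
  refine (Submodule.span_le (p := LinearMap.ker C)).2 ?_ (o.dsc d z hz)
  rintro _ ⟨k, e, p, ν, α, h1, h2, rfl⟩
  refine k2 α e _ (Submodule.subset_span ⟨k, p, ν, h1, rfl⟩) ?_
  change A.K _ (A.K _ _) - A.K _ (A.K _ _) = 0
  rw [h2 ν, h2 ν, map_zero, map_zero, sub_zero]

theorem m_as (h : A.Ax) (a b : V) (z : W) : A.M (wd a b) z = -A.M (wd b a) z := by
  have a0 : As (0 : Ix → V) := fun m n => by simp
  have h0 := h.Mlin 0 0 1 z a0 a0
  have h1 := h.Mlin _ _ 1 z (h.mat.aswd a b) (h.mat.aswd b a)
  have e : wd a b + (1 : ℝ) • wd b a = 0 := by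
    funext m n
    simp [wd]
  rw [e] at h1
  simp only [smul_zero, add_zero, Complex.ofReal_one, one_smul, left_eq_add] at h0 h1
  rw [h0] at h1
  exact eq_neg_of_add_eq_zero_left h1.symm

theorem th_bas (m : Ix) : th (bas m 1) = 0 + eta m • bas m 1 := by
  funext n
  fin_cases m <;> fin_cases n <;> simp [th, e0, bas, eta, o] <;> norm_num

theorem u_st (τ : Fin 4) (m : Ix) : conj (u τ m) * eta m = ep τ * u (st τ) m := by
  fin_cases τ <;> fin_cases m <;> simp [u, st, ep, eta, o]

theorem u_sum (m a : Ix) : ∑ τ, ep τ * (u τ m * u (st τ) a) = 2 * hh m a := by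
  fin_cases m <;> fin_cases a <;> simp [u, st, ep, hh, eta, o, Fin.sum_univ_four] <;> norm_num

universe v v'

/-- a conserved symmetric traceless tensor of dimension four is primary -/
theorem dta {W : Type v} {H : Type v'} [AddCommGroup W] [Module ℂ W] [NormedAddCommGroup H]
    [InnerProductSpace ℂ H] (p : PRT.{v, v'}) (A : Dat W H) (h : A.Ax) (y : Ix → Ix → W)
    (hw : ∀ a b, y a b ∈ A.Wd 4)
    (hM : ∀ w a b, As w → A.M w (y a b) =
      -(∑ c, (w c a : ℂ) • y c b + ∑ c, (w c b : ℂ) • y a c))
    (sym : ∀ a b, y a b = y b a) (trl : ∑ a, (eta a : ℂ) • y a a = 0)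
    (con : ∀ b, ∑ a, A.P (bas a 1) (y a b) = 0) : ∀ a b, A.Pm (y a b) := by
  have r := rowsA A
  have m := r.mul h
  have ou := A.out r h
  have ad := r.adj h
  set Y : Ix → Ix → W := fun a b => ((eta a : ℂ) * eta b) • y a b with hY
  have Ys : ∀ a b, Y a b = Y b a := fun a b => by simp only [hY, sym a b, mul_comm]
  have Yd : ∀ a, Y a a = y a a := fun a => by simp only [hY, Tow.eta2, one_smul]
  have MY : ∀ i j a b, A.M (wd (bas i 1) (bas j 1)) (Y a b) =
      ((2 * hh j b) • Y a i - (2 * hh i b) • Y a j) + (2 * hh j a) • Y i b -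
        (2 * hh i a) • Y j b := fun i j a b => by
    have hw := h.mat.aswd (bas i 1) (bas j 1)
    rw [add_sub_assoc, ← sum_wd i j b (Y a), ← sum_wd i j a (Y · b), add_comm]
    simp only [hY, map_smul, hM _ a b hw, smul_neg, smul_add, neg_add, Finset.smul_sum, smul_smul,
      ← Finset.sum_neg_distrib, ← neg_smul]
    congr 1 <;> refine Finset.sum_congr rfl fun c _ => ?_ <;> congr 1
    · linear_combination (-eta b : ℂ) * as_c hw c a
    · linear_combination (-eta a : ℂ) * as_c hw c b
  let B : TA W H :=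
    { ip := A.ip
      P := fun τ => tv τ fun i => A.P (bas i 1)
      K := fun τ => tv τ fun i => A.K (bas i 1)
      M := fun α β => tv α fun i => tv β fun j => A.M (wd (bas i 1) (bas j 1))
      Wd := fun d => A.Wd d
      t := fun α β => tv α fun a => tv β fun b => Y a b
      inj := h.inj
      neg := fun z hz => by
        rwa [(r.kil h).neg _ (by simp), Submodule.mem_bot] at hz
      ind := fun d z h1 h2 => by
        have e := (ou.dil _ z h1).symm.trans (ou.dil _ z h2)
        simp only [Int.cast_add, Int.cast_one, Complex.add_re, Complex.one_re,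
          Complex.ofReal_add, Complex.ofReal_one, add_smul, one_smul, left_eq_add] at e
        exact e
      wK := fun d τ z hz => by
        rw [tv_ap]
        exact tv_mem _ fun i => by simpa using m.WK _ _ z hz
      wP := fun d τ z hz => by
        rw [tv_ap]
        exact tv_mem _ fun i => by simpa using m.WP _ _ z hz
      wM := fun d α β z hz => by
        simp only [tv_ap]
        exact tv_mem _ fun i => tv_mem _ fun j => ou.lor.WM _ _ (h.mat.aswd _ _) z hz
      as := fun α β z => by
        simp only [tv_ap]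
        rw [tv_comm β α, ← tv_neg]
        refine tv_congr _ fun i => ?_
        rw [← tv_neg]
        exact tv_congr _ fun j => m_as h _ _ z
      KP := fun d τ σ z hz => by
        simp only [tv_ap, tv_map, kp h ou.dil hz, tv_sub, tv_smul']
        rw [tv_comm τ σ, tv_g']
        congr 3
        simp only [Complex.intCast_re, Complex.ofReal_intCast]
        ring
      MK := fun d α β τ z hz => by
        simp only [tv_ap, tv_map]
        exact ext3 (mr' h ou.lor (m.K · _) hz) α β τ
      MP := fun d α β τ z hz => by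
        simp only [tv_ap, tv_map]
        exact ext3 (mr' h ou.lor (m.P · _) hz) α β τ
      KK := fun d τ σ z hz => by
        simp only [tv_ap, tv_map]
        rw [tv_comm τ σ]
        exact tv_congr _ fun i => tv_congr _ fun j => kk h m ou _ _ hz
      adj := fun d τ z hz hK => by
        have k0 : ∀ i, A.K (bas i 1) z = 0 := tv_inv fun σ => (tv_ap σ _ z).symm.trans (hK σ)
        refine ⟨∑ i, conj (u τ i) • (-(4 * I * bas i 1 o) • A.S z -
          (2 * I) • A.M (wd e0 (bas i 1)) z), ?_, fun σ => ?_, fun x => ?_⟩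
        · exact Submodule.sum_mem _ fun i _ => Submodule.smul_mem _ _ (Submodule.sub_mem _
            (Submodule.smul_mem _ _ (m.WS _ z hz))
            (Submodule.smul_mem _ _ (ou.lor.WM _ _ (h.mat.aswd _ _) z hz)))
        · have k1 : ∀ i j, A.K (bas j 1) (A.M (wd e0 (bas i 1)) z) = 0 := fun i j => by
            have := mr ou.lor (m.K · _) (h.mat.aswd e0 (bas i 1)) j z hz
            simpa only [k0, map_zero, smul_zero, Finset.sum_const_zero, add_zero] using this.symm
          rw [tv_ap]
          simp only [tv, map_sum, map_smul, map_sub, ou.dil _ z hz, k0, k1, smul_zero,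
            sub_zero, Finset.sum_const_zero]
        · have e : ∀ i, A.P (th (bas i 1)) z = (eta i : ℂ) • A.P (bas i 1) z := fun i => by
            rw [th_bas, h.Plin, m.Pe 0]
            simp
          have e' : (4 * ep τ) • (tv (st τ) fun i => A.P (bas i 1)) z =
              ∑ i, conj (u τ i) • (4 : ℂ) • A.P (th (bas i 1)) z := by
            rw [tv_ap]
            simp only [tv, e, smul_smul, Finset.smul_sum]
            refine Finset.sum_congr rfl fun i _ => ?_
            congr 1
            linear_combination -4 * u_st τ i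
          change inner ℂ (A.ip ((tv τ fun i => A.K (bas i 1)) x)) _ = inner ℂ _ (A.ip (_ - _))
          rw [e', ← Finset.sum_sub_distrib, tv_ap]
          simp only [tv, map_sum, sum_inner, inner_sum, ← smul_sub, map_smul, inner_smul_left,
            inner_smul_right]
          refine Finset.sum_congr rfl fun i _ => congrArg _ ((ad.K _ x z).trans ?_)
          simp only [k0, neg_zero, zero_sub, neg_smul, Dat.ii]
      wt := fun α β => tv_mem _ fun a => tv_mem _ fun b => by
        simpa using (A.Wd 4).smul_mem _ (hw a b)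
      sym := fun α β => by
        rw [tv_comm]
        simp only [Ys]
      trl := by
        simp only [tv0, tv1, tv2, tv3, Yd, Ys 3 0, Ys 2 1]
        have t2 : y 0 0 - y 1 1 - y 2 2 - y 3 3 = 0 := by
          simpa [eta, o, Fin.sum_univ_four, sub_eq_add_neg] using trl
        linear_combination (norm := module) t2 + Complex.I_mul_I • y 2 2
      Mt := fun α β γ δ => by
        simp only [tv_ap, tv_map]
        refine (tv_congr γ fun a => tv_rot _ α β δ).trans ?_
        refine (ext3 (Y := fun a => tv δ fun b => Y a b) (Z := fun i j a => tv δ fun b =>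
          (2 * hh j b) • Y a i - (2 * hh i b) • Y a j) (fun i j a => ?_) α β γ).trans ?_
        · simp only [MY, tv_add, tv_sub, tv_smul]
        · have := fun a => ext3 (Z := fun _ _ _ => 0) (Y := fun i => Y a i)
            (X := fun i j b => (2 * hh j b) • Y a i - (2 * hh i b) • Y a j)
            (fun i j b => by rw [zero_add]) α β δ
          rw [← tv_rot, ← tv_congr γ fun a => tv_rot _ α β δ, tv_congr γ this]
          simp only [tv_add, tv_sub, tv_smul]
          simp only [tv, smul_zero, Finset.sum_const_zero]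
          abel
      con := fun β => by
        have e : ∀ τ, ep τ • (tv τ fun i => A.P (bas i 1)) (tv (st τ) fun a => tv β (Y a)) =
            ∑ i, ∑ a, (ep τ * (u τ i * u (st τ) a)) • A.P (bas i 1) (tv β (Y a)) := fun τ => by
          rw [tv_ap]
          simp only [tv_map _ (st τ)]
          simp only [tv.eq_1 τ, tv.eq_1 (st τ), Finset.smul_sum, smul_smul]
        refine (Finset.sum_congr rfl fun τ _ => e τ).trans ?_
        rw [Finset.sum_comm]
        have e2 : ∀ i, ∑ τ, ∑ a, (ep τ * (u τ i * u (st τ) a)) • A.P (bas i 1) (tv β (Y a)) =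
            (2 : ℂ) • tv β fun b => (eta b : ℂ) • A.P (bas i 1) (y i b) := fun i => by
          rw [Finset.sum_comm]
          simp only [← Finset.sum_smul, u_sum, hh, mul_ite, mul_zero, ite_smul, zero_smul,
            Finset.sum_ite_eq, Finset.mem_univ, if_true]
          simp only [tv_map, hY, map_smul, ← tv_smul, smul_smul]
          refine tv_congr _ fun b => ?_
          congr 1
          linear_combination 2 * eta b * Tow.eta2 i
        simp only [e2]
        rw [← Finset.smul_sum]
        simp only [tv]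
        rw [Finset.sum_comm]
        simp only [← Finset.smul_sum, con, smul_zero, Finset.sum_const_zero] }
  intro a b c
  have k : ∀ i a b, A.K (bas i 1) (Y a b) = 0 := fun i a b => by
    refine tv_inv (R := fun b => A.K (bas i 1) (Y a b)) (fun β => ?_) b
    refine tv_inv (R := fun a => tv β fun b => A.K (bas i 1) (Y a b)) (fun α => ?_) a
    refine tv_inv (R := fun i => tv α fun a => tv β fun b => A.K (bas i 1) (Y a b))
      (fun τ => ?_) i
    have := p W H B τ α β
    rw [tv_rot]
    simpa only [B, tv_ap, tv_map] using this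
  have e : y a b = ((eta a : ℂ) * eta b) • Y a b := by
    rw [hY, smul_smul, mul_mul_mul_comm, Tow.eta2, Tow.eta2, one_mul, one_smul]
  rw [m.Ke, e]
  simp only [map_smul, k, smul_zero, Finset.sum_const_zero]

end

end Vale.Agent.N352.T
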