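import Vale.Agent.N352.T.Top
import Vale.Agent.N352.T.Alg
import Vale.Agent.N352.T.Dat

/-!
# N352, block T: the assembly
-/

namespace Vale.Agent.N352.T

theorem dta_all : DTA := fun _ _ _ _ _ _ A h y a b c d e => dta prt A h y a b c d e

/-- **the theorem** -/
theorem thm (D D' : Type*) [NormedAddCommGroup D] [InnerProductSpace ℂ D] [NormedAddCommGroup D']
    [InnerProductSpace ℂ D'] : Dt.Thz D D' := thz D D' dta_all dta_all

end Vale.Agent.N352.T
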