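import Vale.Agent.N352.T.Spec

/-!
# N352, block T: two linear systems
-/

set_option linter.all false

namespace Vale.Agent.N352.T

noncomputable section

variable {W : Type*} [AddCommGroup W] [Module ℂ W]

/-- the weights -/
def wg : Fin 4 → ℤ × ℤ := ![(1, 0), (-1, 0), (0, 1), (0, -1)]

theorem gv : g 0 0 = 0 ∧ g 0 1 = 2 ∧ g 0 2 = 0 ∧ g 0 3 = 0 ∧ g 1 0 = 2 ∧ g 1 1 = 0 ∧ g 1 2 = 0 ∧
    g 1 3 = 0 ∧ g 2 0 = 0 ∧ g 2 1 = 0 ∧ g 2 2 = 0 ∧ g 2 3 = -2 ∧ g 3 0 = 0 ∧ g 3 1 = 0 ∧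
    g 3 2 = -2 ∧ g 3 3 = 0 :=
  ⟨rfl, rfl, rfl, rfl, rfl, rfl, rfl, rfl, rfl, rfl, rfl, rfl, rfl, rfl, rfl, rfl⟩

theorem sv : st 0 = 1 ∧ st 1 = 0 ∧ st 2 = 3 ∧ st 3 = 2 := ⟨rfl, rfl, rfl, rfl⟩

theorem ev : ep 0 = 1 ∧ ep 1 = 1 ∧ ep 2 = -1 ∧ ep 3 = -1 := ⟨rfl, rfl, rfl, rfl⟩

theorem all4 {p : Fin 4 → Prop} : (∀ i, p i) ↔ p 0 ∧ p 1 ∧ p 2 ∧ p 3 := by
  simp only [Fin.forall_fin_succ, IsEmpty.forall_iff, and_true]
  rfl

/-- the action of the Lorentz generators on tensors of rank three -/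
def m1 (y : Fin 4 → Fin 4 → Fin 4 → W) (α β m a b : Fin 4) : W :=
  (2 * g β m) • y α a b - (2 * g α m) • y β a b + (2 * g β a) • y m α b - (2 * g α a) • y m β b +
    (2 * g β b) • y m a α - (2 * g α b) • y m a β

/-- the action of the Lorentz generators on tensors of rank four -/
def m2 (x : Fin 4 → Fin 4 → Fin 4 → Fin 4 → W) (α β n m a b : Fin 4) : W :=
  (2 * g β n) • x α m a b - (2 * g α n) • x β m a b + m1 (x n) α β m a b

/-- large weights -/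
def hi (ω : ℤ × ℤ) : Prop := 2 ≤ ω.1 ∨ ω.1 ≤ -2 ∨ 2 ≤ ω.2 ∨ ω.2 ≤ -2

instance : DecidablePred hi := fun _ => by unfold hi; infer_instance

theorem sy {X : Type*} {y : Fin 4 → Fin 4 → X} (h : ∀ a b, y a b = y b a) : y 1 0 = y 0 1 ∧
    y 2 0 = y 0 2 ∧ y 3 0 = y 0 3 ∧ y 2 1 = y 1 2 ∧ y 3 1 = y 1 3 ∧ y 3 2 = y 2 3 :=
  ⟨h _ _, h _ _, h _ _, h _ _, h _ _, h _ _⟩

theorem lin1 (y : Fin 4 → Fin 4 → Fin 4 → W) (hs : ∀ m a b, y m a b = y m b a)
    (ht : ∀ m, y m 2 3 = y m 0 1)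
    (hE : ∀ n m b, (12 : ℂ) • y m n b + ∑ τ, ep τ • m1 y τ n m (st τ) b = 0) :
    ∀ m a b, y m a b = 0 := by
  have s := fun m => sy (hs m)
  have e000 := hE 0 0 0
  have e001 := hE 0 0 1
  have e002 := hE 0 0 2
  have e003 := hE 0 0 3
  have e010 := hE 0 1 0
  have e011 := hE 0 1 1
  have e012 := hE 0 1 2
  have e013 := hE 0 1 3
  have e020 := hE 0 2 0
  have e021 := hE 0 2 1
  have e022 := hE 0 2 2
  have e023 := hE 0 2 3
  have e030 := hE 0 3 0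
  have e031 := hE 0 3 1
  have e033 := hE 0 3 3
  have e110 := hE 1 1 0
  have e111 := hE 1 1 1
  have e112 := hE 1 1 2
  have e113 := hE 1 1 3
  have e120 := hE 1 2 0
  have e121 := hE 1 2 1
  have e122 := hE 1 2 2
  have e123 := hE 1 2 3
  have e130 := hE 1 3 0
  have e131 := hE 1 3 1
  have e133 := hE 1 3 3
  have e220 := hE 2 2 0
  have e221 := hE 2 2 1
  have e222 := hE 2 2 2
  have e223 := hE 2 2 3
  have e230 := hE 2 3 0
  have e231 := hE 2 3 1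
  have e330 := hE 3 3 0
  have e331 := hE 3 3 1
  have e332 := hE 3 3 2
  have e333 := hE 3 3 3
  simp only [m1, Fin.sum_univ_four, gv, sv, ev, s, ht]
    at e000 e001 e002 e003 e010 e011 e012 e013 e020 e021 e022 e023 e030 e031 e033 e110 e111 e112
      e113 e120 e121 e122 e123 e130 e131 e133 e220 e221 e222 e223 e230 e231 e330 e331 e332 e333
  have z301 : y 3 0 1 = 0 := by
    linear_combination (norm := module) (-1/8 : ℂ) • e332
  have z313 : y 3 1 3 = 0 := by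
    linear_combination (norm := module) (-1/8 : ℂ) • e331
  have z312 : y 3 1 2 = 0 := by
    linear_combination (norm := module) (1/4 : ℂ) • e123 + (-1/8 : ℂ) • e110 + (-1/4 : ℂ) • e011
  have z303 : y 3 0 3 = 0 := by
    linear_combination (norm := module) (-1/8 : ℂ) • e330
  have z302 : y 3 0 2 = 0 := by
    linear_combination (norm := module) (1/4 : ℂ) • e023 + (-1/8 : ℂ) • e001 + (-1/4 : ℂ) • e010
  have z333 : y 3 3 3 = 0 := by
    linear_combination (norm := module) (-1/8 : ℂ) • e333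
  have z322 : y 3 2 2 = 0 := by
    linear_combination (norm := module) (-1/4 : ℂ) • e012 + (1/8 : ℂ) • e223
  have z311 : y 3 1 1 = 0 := by
    linear_combination (norm := module) (-1/4 : ℂ) • e131 + (1/8 : ℂ) • e113
  have z300 : y 3 0 0 = 0 := by
    linear_combination (norm := module) (-1/4 : ℂ) • e030 + (1/8 : ℂ) • e003
  have z201 : y 2 0 1 = 0 := by
    linear_combination (norm := module) (-1/8 : ℂ) • e223
  have z213 : y 2 1 3 = 0 := by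
    linear_combination (norm := module) (-1/4 : ℂ) • e123 + (1/8 : ℂ) • e110
  have z212 : y 2 1 2 = 0 := by
    linear_combination (norm := module) (-1/8 : ℂ) • e221
  have z203 : y 2 0 3 = 0 := by
    linear_combination (norm := module) (-1/4 : ℂ) • e023 + (1/8 : ℂ) • e001
  have z202 : y 2 0 2 = 0 := by
    linear_combination (norm := module) (-1/8 : ℂ) • e220
  have z233 : y 2 3 3 = 0 := by
    linear_combination (norm := module) (-1/4 : ℂ) • e013 + (1/8 : ℂ) • e332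
  have z222 : y 2 2 2 = 0 := by
    linear_combination (norm := module) (-1/8 : ℂ) • e222
  have z211 : y 2 1 1 = 0 := by
    linear_combination (norm := module) (-1/4 : ℂ) • e121 + (1/8 : ℂ) • e112
  have z200 : y 2 0 0 = 0 := by
    linear_combination (norm := module) (-1/4 : ℂ) • e020 + (1/8 : ℂ) • e002
  have z101 : y 1 0 1 = 0 := by
    linear_combination (norm := module) (-1/8 : ℂ) • e110
  have z113 : y 1 1 3 = 0 := by
    linear_combination (norm := module) (-1/8 : ℂ) • e113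
  have z112 : y 1 1 2 = 0 := by
    linear_combination (norm := module) (-1/8 : ℂ) • e112
  have z103 : y 1 0 3 = 0 := by
    linear_combination (norm := module) (-1/4 : ℂ) • e130 + (1/8 : ℂ) • e332
  have z102 : y 1 0 2 = 0 := by
    linear_combination (norm := module) (-1/4 : ℂ) • e120 + (1/8 : ℂ) • e223
  have z133 : y 1 3 3 = 0 := by
    linear_combination (norm := module) (-1/4 : ℂ) • e133 + (1/8 : ℂ) • e331
  have z122 : y 1 2 2 = 0 := by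
    linear_combination (norm := module) (-1/4 : ℂ) • e122 + (1/8 : ℂ) • e221
  have z111 : y 1 1 1 = 0 := by
    linear_combination (norm := module) (-1/8 : ℂ) • e111
  have z100 : y 1 0 0 = 0 := by
    linear_combination (norm := module) (-1/4 : ℂ) • e230 + (1/8 : ℂ) • e001
  have z001 : y 0 0 1 = 0 := by
    linear_combination (norm := module) (-1/8 : ℂ) • e001
  have z013 : y 0 1 3 = 0 := by
    linear_combination (norm := module) (-1/4 : ℂ) • e031 + (1/8 : ℂ) • e332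
  have z012 : y 0 1 2 = 0 := by
    linear_combination (norm := module) (-1/4 : ℂ) • e021 + (1/8 : ℂ) • e223
  have z003 : y 0 0 3 = 0 := by
    linear_combination (norm := module) (-1/8 : ℂ) • e003
  have z002 : y 0 0 2 = 0 := by
    linear_combination (norm := module) (-1/8 : ℂ) • e002
  have z033 : y 0 3 3 = 0 := by
    linear_combination (norm := module) (-1/4 : ℂ) • e033 + (1/8 : ℂ) • e330
  have z022 : y 0 2 2 = 0 := by
    linear_combination (norm := module) (-1/4 : ℂ) • e022 + (1/8 : ℂ) • e220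
  have z011 : y 0 1 1 = 0 := by
    linear_combination (norm := module) (-1/4 : ℂ) • e231 + (1/8 : ℂ) • e110
  have z000 : y 0 0 0 = 0 := by
    linear_combination (norm := module) (-1/8 : ℂ) • e000
  simp only [all4, s, ht, and_self, z301, z313, z312, z303, z302, z333, z322, z311, z300, z201,
      z213, z212, z203, z202, z233, z222, z211, z200, z101, z113, z112, z103, z102, z133, z122,
      z111, z100, z001, z013, z012, z003, z002, z033, z022, z011, z000]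

variable (x : Fin 4 → Fin 4 → Fin 4 → Fin 4 → W) (hk : ∀ n m, x n m = x m n)
    (hs : ∀ n m a b, x n m a b = x n m b a) (ht : ∀ n m, x n m 2 3 = x n m 0 1)
    (hz : ∀ n m a b, hi (wg n + wg m + wg a + wg b) → x n m a b = 0)
    (hM : ∀ α β n m a b, x n m a b = 0 → m2 x α β n m a b = 0)
    (hE : ∀ l n m b, (8 : ℂ) • x n m l b + ∑ τ, ep τ • m2 x τ l n m (st τ) b +
      ((12 : ℂ) • x l m n b + ∑ τ, ep τ • m1 (x l) τ n m (st τ) b) = 0)
include hz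

theorem lin2h : x 0 0 0 0 = 0 ∧ x 0 0 2 2 = 0 ∧ x 0 0 3 3 = 0 ∧ x 0 0 0 2 = 0 ∧ x 0 0 0 3 = 0 ∧ x
      0 0 0 1 = 0 ∧ x 0 1 0 0 = 0 ∧ x 0 1 1 1 = 0 ∧ x 0 1 2 2 = 0 ∧ x 0 1 3 3 = 0 ∧ x 0 2 0 0 = 0
      ∧ x 0 2 2 2 = 0 ∧ x 0 2 0 2 = 0 ∧ x 0 2 0 3 = 0 ∧ x 0 2 1 2 = 0 ∧ x 0 3 0 0 = 0 ∧ x 0 3 3 3
      = 0 ∧ x 0 3 0 2 = 0 ∧ x 0 3 0 3 = 0 ∧ x 0 3 1 3 = 0 ∧ x 1 1 1 1 = 0 ∧ x 1 1 2 2 = 0 ∧ x 1 1
      3 3 = 0 ∧ x 1 1 1 2 = 0 ∧ x 1 1 1 3 = 0 ∧ x 1 1 0 1 = 0 ∧ x 1 2 1 1 = 0 ∧ x 1 2 2 2 = 0 ∧ x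
      1 2 0 2 = 0 ∧ x 1 2 1 2 = 0 ∧ x 1 2 1 3 = 0 ∧ x 1 3 1 1 = 0 ∧ x 1 3 3 3 = 0 ∧ x 1 3 0 3 = 0
      ∧ x 1 3 1 2 = 0 ∧ x 1 3 1 3 = 0 ∧ x 2 2 0 0 = 0 ∧ x 2 2 1 1 = 0 ∧ x 2 2 2 2 = 0 ∧ x 2 2 0 2
      = 0 ∧ x 2 2 1 2 = 0 ∧ x 2 2 0 1 = 0 ∧ x 2 3 0 0 = 0 ∧ x 2 3 1 1 = 0 ∧ x 2 3 2 2 = 0 ∧ x 2 3
      3 3 = 0 ∧ x 3 3 0 0 = 0 ∧ x 3 3 1 1 = 0 ∧ x 3 3 3 3 = 0 ∧ x 3 3 0 3 = 0 ∧ x 3 3 1 3 = 0 ∧ x
      3 3 0 1 = 0 := by
  refine ⟨?_, ?_, ?_, ?_, ?_, ?_, ?_, ?_, ?_, ?_, ?_, ?_, ?_, ?_, ?_, ?_, ?_, ?_, ?_, ?_, ?_, ?_,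
      ?_, ?_, ?_, ?_, ?_, ?_, ?_, ?_, ?_, ?_, ?_, ?_, ?_, ?_, ?_, ?_, ?_, ?_, ?_, ?_, ?_, ?_, ?_,
      ?_, ?_, ?_, ?_, ?_, ?_, ?_⟩ <;> exact hz _ _ _ _ (by decide)

include hk hs ht hM hE

theorem lin2a : x 3 3 1 2 = 0 ∧ x 3 3 0 2 = 0 ∧ x 2 3 1 3 = 0 ∧ x 2 3 1 2 = 0 ∧ x 2 3 0 3 = 0 ∧ x
      2 3 0 2 = 0 ∧ x 2 2 1 3 = 0 ∧ x 2 2 0 3 = 0 ∧ x 1 3 0 1 = 0 ∧ x 1 3 2 2 = 0 ∧ x 1 3 0 0 = 0
      ∧ x 1 2 0 1 = 0 ∧ x 1 2 3 3 = 0 ∧ x 1 2 0 0 = 0 ∧ x 1 1 0 3 = 0 ∧ x 1 1 0 2 = 0 ∧ x 0 3 0 1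
      = 0 ∧ x 0 3 2 2 = 0 ∧ x 0 3 1 1 = 0 ∧ x 0 2 0 1 = 0 ∧ x 0 2 3 3 = 0 ∧ x 0 2 1 1 = 0 ∧ x 0 1
      1 3 = 0 ∧ x 0 1 1 2 = 0 ∧ x 0 1 0 3 = 0 ∧ x 0 1 0 2 = 0 ∧ x 0 0 1 3 = 0 ∧ x 0 0 1 2 = 0 := by
  have s := fun n m => sy (hs n m)
  have k := sy hk
  have h := lin2h x hz
  have e0012 := hE 0 0 1 2
  have e0013 := hE 0 0 1 3
  have e0021 := hE 0 0 2 1
  have e0031 := hE 0 0 3 1
  have e0112 := hE 0 1 1 2
  have e0113 := hE 0 1 1 3
  have e0223 := hE 0 2 2 3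
  have e0332 := hE 0 3 3 2
  have e1120 := hE 1 1 2 0
  have e1130 := hE 1 1 3 0
  have e1223 := hE 1 2 2 3
  have e1332 := hE 1 3 3 2
  have m020111 := hM 0 2 0 1 1 1 (by simp only [h])
  have m020133 := hM 0 2 0 1 3 3 (by simp only [h])
  have m021133 := hM 0 2 1 1 3 3 (by simp only [h])
  have m022311 := hM 0 2 2 3 1 1 (by simp only [h])
  have m030111 := hM 0 3 0 1 1 1 (by simp only [h])
  have m030122 := hM 0 3 0 1 2 2 (by simp only [h])
  have m031122 := hM 0 3 1 1 2 2 (by simp only [h])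
  have m032311 := hM 0 3 2 3 1 1 (by simp only [h])
  have m120033 := hM 1 2 0 0 3 3 (by simp only [h])
  have m120100 := hM 1 2 0 1 0 0 (by simp only [h])
  have m120133 := hM 1 2 0 1 3 3 (by simp only [h])
  have m122300 := hM 1 2 2 3 0 0 (by simp only [h])
  have m130022 := hM 1 3 0 0 2 2 (by simp only [h])
  have m130100 := hM 1 3 0 1 0 0 (by simp only [h])
  have m130122 := hM 1 3 0 1 2 2 (by simp only [h])
  have m132300 := hM 1 3 2 3 0 0 (by simp only [h])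
  simp only [m1, m2, Fin.sum_univ_four, gv, sv, ev, k, s, ht, h]
    at e0012 e0013 e0021 e0031 e0112 e0113 e0223 e0332 e1120 e1130 e1223 e1332 m020111 m020133
      m021133 m022311 m030111 m030122 m031122 m032311 m120033 m120100 m120133 m122300 m130022
      m130100 m130122 m132300
  refine ⟨?_, ?_, ?_, ?_, ?_, ?_, ?_, ?_, ?_, ?_, ?_, ?_, ?_, ?_, ?_, ?_, ?_, ?_, ?_, ?_, ?_, ?_,
      ?_, ?_, ?_, ?_, ?_, ?_⟩
  · linear_combination (norm := module) (1/8 : ℂ) • e0113 + (-1/8 : ℂ) • m120133 +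
      (-1/16 : ℂ) • m021133 + (1/16 : ℂ) • e1130 + (-1/8 : ℂ) • e1332
  · linear_combination (norm := module) (1/8 : ℂ) • e0013 + (-1/16 : ℂ) • m120033 +
      (1/16 : ℂ) • e0031 + (-1/8 : ℂ) • e0332 + (-1/8 : ℂ) • m020133
  · linear_combination (norm := module) (-1/8 : ℂ) • m032311 + (-3/16 : ℂ) • m120133 +
      (1/8 : ℂ) • m030111 + (1/32 : ℂ) • m021133 + (-1/32 : ℂ) • e1130 + (1/16 : ℂ) • e0113
  · linear_combination (norm := module) (1/16 : ℂ) • e0112 + (-3/16 : ℂ) • m130122 +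
      (1/32 : ℂ) • m031122 + (-1/32 : ℂ) • e1120 + (-1/8 : ℂ) • m022311 + (1/8 : ℂ) • m020111
  · linear_combination (norm := module) (-1/8 : ℂ) • m132300 + (-3/16 : ℂ) • m020133 +
      (1/8 : ℂ) • m130100 + (1/32 : ℂ) • m120033 + (-1/32 : ℂ) • e0031 + (1/16 : ℂ) • e0013
  · linear_combination (norm := module) (1/16 : ℂ) • e0012 + (1/32 : ℂ) • m130022 +
      (-1/32 : ℂ) • e0021 + (-3/16 : ℂ) • m030122 + (-1/8 : ℂ) • m122300 + (1/8 : ℂ) • m120100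
  · linear_combination (norm := module) (-1/8 : ℂ) • m130122 + (-1/16 : ℂ) • m031122 +
      (1/16 : ℂ) • e1120 + (-1/8 : ℂ) • e1223 + (1/8 : ℂ) • e0112
  · linear_combination (norm := module) (-1/8 : ℂ) • m030122 + (-1/16 : ℂ) • m130022 +
      (1/16 : ℂ) • e0021 + (-1/8 : ℂ) • e0223 + (1/8 : ℂ) • e0012
  · linear_combination (norm := module) (-1/16 : ℂ) • e0113 + (1/16 : ℂ) • m120133 +
      (1/32 : ℂ) • m021133 + (-1/32 : ℂ) • e1130
  · linear_combination (norm := module) (-1/16 : ℂ) • m031122 + (1/16 : ℂ) • e1120 +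
      (1/8 : ℂ) • m130122 + (-1/8 : ℂ) • e0112
  · linear_combination (norm := module) (3/8 : ℂ) • m020133 + (-1/4 : ℂ) • m130100 +
      (-1/16 : ℂ) • m120033 + (1/16 : ℂ) • e0031 + (-1/8 : ℂ) • e0013
  · linear_combination (norm := module) (1/16 : ℂ) • m130122 + (1/32 : ℂ) • m031122 +
      (-1/32 : ℂ) • e1120 + (-1/16 : ℂ) • e0112
  · linear_combination (norm := module) (-1/16 : ℂ) • m021133 + (1/16 : ℂ) • e1130 +
      (-1/8 : ℂ) • e0113 + (1/8 : ℂ) • m120133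
  · linear_combination (norm := module) (3/8 : ℂ) • m030122 + (-1/4 : ℂ) • m120100 +
      (-1/16 : ℂ) • m130022 + (1/16 : ℂ) • e0021 + (-1/8 : ℂ) • e0012
  · linear_combination (norm := module) (-1/16 : ℂ) • e1130 + (1/8 : ℂ) • e0113 +
      (-1/8 : ℂ) • m120133 + (-1/16 : ℂ) • m021133
  · linear_combination (norm := module) (-1/16 : ℂ) • e1120 + (-1/8 : ℂ) • m130122 +
      (-1/16 : ℂ) • m031122 + (1/8 : ℂ) • e0112
  · linear_combination (norm := module) (-1/16 : ℂ) • e0013 + (1/32 : ℂ) • m120033 +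
      (-1/32 : ℂ) • e0031 + (1/16 : ℂ) • m020133
  · linear_combination (norm := module) (-1/16 : ℂ) • m130022 + (1/16 : ℂ) • e0021 +
      (1/8 : ℂ) • m030122 + (-1/8 : ℂ) • e0012
  · linear_combination (norm := module) (3/8 : ℂ) • m120133 + (-1/4 : ℂ) • m030111 +
      (-1/16 : ℂ) • m021133 + (1/16 : ℂ) • e1130 + (-1/8 : ℂ) • e0113
  · linear_combination (norm := module) (1/16 : ℂ) • m030122 + (1/32 : ℂ) • m130022 +
      (-1/32 : ℂ) • e0021 + (-1/16 : ℂ) • e0012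
  · linear_combination (norm := module) (-1/16 : ℂ) • m120033 + (1/16 : ℂ) • e0031 +
      (-1/8 : ℂ) • e0013 + (1/8 : ℂ) • m020133
  · linear_combination (norm := module) (3/8 : ℂ) • m130122 + (-1/4 : ℂ) • m020111 +
      (-1/16 : ℂ) • m031122 + (1/16 : ℂ) • e1120 + (-1/8 : ℂ) • e0112
  · linear_combination (norm := module) (-3/16 : ℂ) • m120133 + (1/32 : ℂ) • m021133 +
      (-1/32 : ℂ) • e1130 + (1/16 : ℂ) • e0113
  · linear_combination (norm := module) (-3/16 : ℂ) • m130122 + (1/32 : ℂ) • m031122 +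
      (-1/32 : ℂ) • e1120 + (1/16 : ℂ) • e0112
  · linear_combination (norm := module) (-3/16 : ℂ) • m020133 + (1/32 : ℂ) • m120033 +
      (-1/32 : ℂ) • e0031 + (1/16 : ℂ) • e0013
  · linear_combination (norm := module) (-3/16 : ℂ) • m030122 + (1/32 : ℂ) • m130022 +
      (-1/32 : ℂ) • e0021 + (1/16 : ℂ) • e0012
  · linear_combination (norm := module) (-1/16 : ℂ) • e0031 + (1/8 : ℂ) • e0013 +
      (-1/16 : ℂ) • m120033 + (-1/8 : ℂ) • m020133
  · linear_combination (norm := module) (-1/16 : ℂ) • e0021 + (-1/8 : ℂ) • m030122 +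
      (-1/16 : ℂ) • m130022 + (1/8 : ℂ) • e0012

theorem lin2 : ∀ n m a b, x n m a b = 0 := by
  have s := fun n m => sy (hs n m)
  have k := sy hk
  have h := lin2h x hz
  have z := lin2a x hk hs ht hz hM hE
  have e0011 := hE 0 0 1 1
  have m030112 := hM 0 3 0 1 1 2 (by simp only [z])
  have m031102 := hM 0 3 1 1 0 2 (by simp only [z])
  have m120013 := hM 1 2 0 0 1 3 (by simp only [z])
  have m120103 := hM 1 2 0 1 0 3 (by simp only [z])
  have m120233 := hM 1 2 0 2 3 3 (by simp only [z])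
  have m130012 := hM 1 3 0 0 1 2 (by simp only [z])
  have m130102 := hM 1 3 0 1 0 2 (by simp only [z])
  have m130322 := hM 1 3 0 3 2 2 (by simp only [z])
  have m132302 := hM 1 3 2 3 0 2 (by simp only [z])
  simp only [m1, m2, Fin.sum_univ_four, gv, sv, ev, k, s, ht, h, z]
    at e0011 m030112 m031102 m120013 m120103 m120233 m130012 m130102 m130322 m132302
  have z3322 : x 3 3 2 2 = 0 := by
    linear_combination (norm := module) (1/6 : ℂ) • e0011 + (-1/6 : ℂ) • m120013 +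
      (1/6 : ℂ) • m130012 + (-1/6 : ℂ) • m030112 + (-1/4 : ℂ) • m130322
  have z2301 : x 2 3 0 1 = 0 := by
    linear_combination (norm := module) (-1/8 : ℂ) • m132302 + (-1/6 : ℂ) • m030112 +
      (1/8 : ℂ) • m130102 + (1/24 : ℂ) • e0011 + (-1/24 : ℂ) • m120013 + (1/24 : ℂ) • m130012
  have z2233 : x 2 2 3 3 = 0 := by
    linear_combination (norm := module) (-1/4 : ℂ) • m120233 + (1/12 : ℂ) • m120013 +
      (-1/12 : ℂ) • m130012 + (1/6 : ℂ) • e0011 + (-1/6 : ℂ) • m030112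
  have z1302 : x 1 3 0 2 = 0 := by
    linear_combination (norm := module) (1/12 : ℂ) • m120013 + (-1/12 : ℂ) • m130012 +
      (1/3 : ℂ) • m030112 + (-1/4 : ℂ) • m130102 + (-1/12 : ℂ) • e0011
  have z1203 : x 1 2 0 3 = 0 := by
    linear_combination (norm := module) (-1/4 : ℂ) • m120103 + (1/12 : ℂ) • m120013 +
      (-1/12 : ℂ) • m130012 + (1/3 : ℂ) • m030112 + (-1/12 : ℂ) • e0011
  have z1100 : x 1 1 0 0 = 0 := by
    linear_combination (norm := module) (-1/4 : ℂ) • m031102 + (-1/6 : ℂ) • m120013 +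
      (1/6 : ℂ) • m130012 + (-2/3 : ℂ) • m030112 + (1/2 : ℂ) • m130102 + (1/6 : ℂ) • e0011
  have z0312 : x 0 3 1 2 = 0 := by
    linear_combination (norm := module) (1/12 : ℂ) • m030112 + (1/12 : ℂ) • m120013 +
      (-1/12 : ℂ) • m130012 + (-1/12 : ℂ) • e0011
  have z0213 : x 0 2 1 3 = 0 := by
    linear_combination (norm := module) (-1/24 : ℂ) • m120013 + (1/24 : ℂ) • m130012 +
      (1/12 : ℂ) • m030112 + (-1/12 : ℂ) • e0011
  have z0101 : x 0 1 0 1 = 0 := by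
    linear_combination (norm := module) (-1/24 : ℂ) • m120013 + (1/24 : ℂ) • m130012 +
      (-1/6 : ℂ) • m030112 + (1/24 : ℂ) • e0011
  have z0011 : x 0 0 1 1 = 0 := by
    linear_combination (norm := module) (-1/12 : ℂ) • m130012 + (-1/6 : ℂ) • m030112 +
      (-1/6 : ℂ) • m120013 + (1/6 : ℂ) • e0011
  simp only [all4, k, s, ht, h, z, and_self, z3322, z2301, z2233, z1302, z1203, z1100, z0312,
      z0213, z0101, z0011]

end

end Vale.Agent.N352.T
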