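import Vale.Agent.P352.MathlibUsed

/-!
# N352, block T: the conformal algebra in a null tetrad

The tetrad is `u 0 = e0 + e3`, `u 1 = e0 - e3`, `u 2 = e1 + i e2`, `u 3 = e1 - i e2`.
-/

set_option linter.all false

namespace Vale.Agent.N352.T

noncomputable section

/-- the scalar products of the vectors of the tetrad -/
def g : Fin 4 → Fin 4 → ℂ := ![![0, 2, 0, 0], ![2, 0, 0, 0], ![0, 0, 0, -2], ![0, 0, -2, 0]]

/-- the dual index -/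
def st : Fin 4 → Fin 4 := ![1, 0, 3, 2]

/-- the signs -/
def ep : Fin 4 → ℂ := ![1, 1, -1, -1]

/-- the conformal algebra on the fields at the origin, and a conserved symmetric traceless tensor
of dimension four -/
structure TA (W H : Type*) [AddCommGroup W] [Module ℂ W] [NormedAddCommGroup H]
    [InnerProductSpace ℂ H] where
  ip : W →ₗ[ℂ] H
  P : Fin 4 → W →ₗ[ℂ] W
  K : Fin 4 → W →ₗ[ℂ] W
  M : Fin 4 → Fin 4 → W →ₗ[ℂ] W
  Wd : ℤ → Submodule ℂ W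
  t : Fin 4 → Fin 4 → W
  inj : Function.Injective ip
  neg : ∀ z ∈ Wd (-1), z = 0
  ind : ∀ d, ∀ z ∈ Wd d, z ∈ Wd (d + 1) → z = 0
  wK : ∀ d τ, ∀ z ∈ Wd d, K τ z ∈ Wd (d - 1)
  wP : ∀ d τ, ∀ z ∈ Wd d, P τ z ∈ Wd (d + 1)
  wM : ∀ d α β, ∀ z ∈ Wd d, M α β z ∈ Wd d
  as : ∀ α β z, M α β z = -M β α z
  KP : ∀ d τ σ, ∀ z ∈ Wd d, K τ (P σ z) = P σ (K τ z) - (2 * g σ τ * d) • z - M σ τ z
  MK : ∀ d α β τ, ∀ z ∈ Wd d,
    M α β (K τ z) = K τ (M α β z) + (2 * g β τ) • K α z - (2 * g α τ) • K β z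
  MP : ∀ d α β τ, ∀ z ∈ Wd d,
    M α β (P τ z) = P τ (M α β z) + (2 * g β τ) • P α z - (2 * g α τ) • P β z
  KK : ∀ d τ σ, ∀ z ∈ Wd d, K τ (K σ z) = K σ (K τ z)
  adj : ∀ d τ, ∀ z ∈ Wd d, (∀ σ, K σ z = 0) → ∃ j ∈ Wd d, (∀ σ, K σ j = 0) ∧
    ∀ y, inner ℂ (ip (K τ y)) (ip z) = inner ℂ (ip y) (ip (j - (4 * ep τ) • P (st τ) z))
  wt : ∀ α β, t α β ∈ Wd 4
  sym : ∀ α β, t α β = t β α
  trl : t 0 1 = t 2 3
  Mt : ∀ α β γ δ, M α β (t γ δ) = (2 * g β γ) • t α δ - (2 * g α γ) • t β δ +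
    (2 * g β δ) • t γ α - (2 * g α δ) • t γ β
  con : ∀ β, ∑ τ, ep τ • P τ (t (st τ) β) = 0

/-- row PRT: the tensor is primary -/
def PRT : Prop := ∀ (W H : Type*) [AddCommGroup W] [Module ℂ W] [NormedAddCommGroup H]
  [InnerProductSpace ℂ H] (A : TA W H) τ α β, A.K τ (A.t α β) = 0

end

end Vale.Agent.N352.T
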